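import Vale.Agent.P050.R3.H257.Num

/-!
# P050, cycles with ears: sums over closed walks
-/

namespace Vale.Agent.P050.H257

open Finset Matrix

variable {U : Type*} [Fintype U] [DecidableEq U]

/-- the weight of the walk `u, z 0, …, z (k - 1), w` -/
def PW (A : Matrix U U ℝ) : (k : ℕ) → U → (Fin k → U) → U → ℝ
  | 0, u, _, w => A u w
  | k + 1, u, z, w => A u (z 0) * PW A k (z 0) (Fin.tail z) w

/-- the weight of the closed walk `x 0, …, x k, x 0` -/
def cyc (A : Matrix U U ℝ) {k : ℕ} (x : Fin (k + 1) → U) : ℝ := ∏ i, A (x i) (x (i + 1))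

omit [DecidableEq U] in
theorem sum_cons {k : ℕ} (F : (Fin (k + 1) → U) → ℝ) :
    ∑ z : Fin (k + 1) → U, F z = ∑ a : U, ∑ z : Fin k → U, F (Fin.cons a z) := by
  rw [← (Fin.consEquiv fun _ : Fin (k + 1) => U).sum_comp, Fintype.sum_prod_type]
  rfl

theorem PW_sum (A : Matrix U U ℝ) (k : ℕ) (u w : U) :
    ∑ z : Fin k → U, PW A k u z w = (A ^ (k + 1)) u w := by
  induction k generalizing u with
  | zero => simp [PW]
  | succ k ih =>
    rw [sum_cons, pow_succ', Matrix.mul_apply]
    refine Finset.sum_congr rfl fun a _ => ?_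
    rw [← ih a, Finset.mul_sum]
    refine Finset.sum_congr rfl fun z _ => ?_
    simp [PW]

theorem PW_mark (A : Matrix U U ℝ) (k : ℕ) (u w : U) (l : Fin (k + 1)) (φ : U → ℝ) :
    ∑ z : Fin k → U, PW A k u z w * φ ((Fin.cons u z : Fin (k + 1) → U) l) =
      ∑ v, (A ^ (l : ℕ)) u v * φ v * (A ^ (k + 1 - (l : ℕ))) v w := by
  induction k generalizing u with
  | zero =>
    have hl : l = 0 := Fin.ext (by have := l.isLt; simp)
    subst hl
    simp [PW, Matrix.one_apply, mul_comm]
  | succ k ih =>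
    refine Fin.cases ?_ (fun l => ?_) l
    · simp only [Fin.cons_zero, Fin.val_zero, pow_zero, Nat.sub_zero]
      rw [← Finset.sum_mul, PW_sum]
      simp [Matrix.one_apply, mul_comm]
    · rw [sum_cons]
      have h1 : ∀ a : U, ∑ z : Fin k → U, PW A (k + 1) u (Fin.cons a z) w *
          φ ((Fin.cons u (Fin.cons a z : Fin (k + 1) → U) : Fin (k + 1 + 1) → U) l.succ) =
          A u a * ∑ v, (A ^ (l : ℕ)) a v * φ v * (A ^ (k + 1 - (l : ℕ))) v w := by
        intro a
        rw [← ih a l, Finset.mul_sum]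
        refine Finset.sum_congr rfl fun z _ => ?_
        simp only [PW, Fin.cons_zero, Fin.cons_succ, Fin.tail_cons]
        ring
      simp only [h1, Finset.mul_sum]
      rw [Finset.sum_comm]
      refine Finset.sum_congr rfl fun v _ => ?_
      rw [Fin.val_succ, pow_succ', Matrix.mul_apply, Finset.sum_mul, Finset.sum_mul]
      refine Finset.sum_congr rfl fun a _ => ?_
      rw [show k + 1 + 1 - ((l : ℕ) + 1) = k + 1 - l by omega]
      ring

omit [Fintype U] [DecidableEq U] in
theorem PW_prod (A : Matrix U U ℝ) (k : ℕ) (u : U) (z : Fin k → U) (w : U) :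
    PW A k u z w = (∏ i : Fin k, A ((Fin.cons u z : Fin (k + 1) → U) i.castSucc)
      ((Fin.cons u z : Fin (k + 1) → U) i.succ)) *
        A ((Fin.cons u z : Fin (k + 1) → U) (Fin.last k)) w := by
  induction k generalizing u with
  | zero => simp [PW]
  | succ k ih =>
    rw [PW, ih, Fin.prod_univ_succ]
    have h0 : (Fin.cons (z 0) (Fin.tail z) : Fin (k + 1) → U) = z := Fin.cons_self_tail z
    simp only [h0]
    simp only [Fin.cons_succ, Fin.castSucc_zero, Fin.cons_zero]
    rw [← Fin.succ_last, Fin.cons_succ, mul_assoc]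
    simp only [← Fin.succ_castSucc, Fin.cons_succ]

omit [Fintype U] [DecidableEq U] in
theorem cyc_cons (A : Matrix U U ℝ) (k : ℕ) (u : U) (z : Fin k → U) :
    cyc A (Fin.cons u z : Fin (k + 1) → U) = PW A k u z u := by
  rw [cyc, Fin.prod_univ_castSucc, PW_prod]
  simp only [Fin.coeSucc_eq_succ, Fin.last_add_one, Fin.cons_zero]

omit [Fintype U] [DecidableEq U] in
theorem cyc_rot (A : Matrix U U ℝ) {k : ℕ} (p : Fin (k + 1)) (y : Fin (k + 1) → U) :
    cyc A (fun i => y (i - p)) = cyc A y := by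
  unfold cyc
  rw [← (Equiv.subRight p).prod_comp (fun i => A (y i) (y (i + 1)))]
  refine Finset.prod_congr rfl fun i _ => ?_
  simp only [Equiv.subRight_apply]
  rw [add_sub_right_comm]

theorem cyc_pair {A : Matrix U U ℝ} {d : ℝ} (h : Reg A d) {k : ℕ} (p q : Fin (k + 1))
    (f : U → U → ℝ) : ∑ x : Fin (k + 1) → U, cyc A x * f (x p) (x q) =
      ∑ u, ∑ v, (A ^ ((q - p : Fin (k + 1)) : ℕ)) u v *
        (A ^ (k + 1 - ((q - p : Fin (k + 1)) : ℕ))) u v * f u v := by
  have h1 : ∑ x : Fin (k + 1) → U, cyc A x * f (x p) (x q) =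
      ∑ y : Fin (k + 1) → U, cyc A y * f (y 0) (y (q - p)) := by
    rw [← ((Equiv.addRight p).arrowCongr (Equiv.refl U)).sum_comp]
    refine Finset.sum_congr rfl fun y _ => ?_
    have e : ((Equiv.addRight p).arrowCongr (Equiv.refl U)) y = fun i => y (i - p) := by
      funext i
      simp [Equiv.arrowCongr, sub_eq_add_neg]
    rw [e, cyc_rot]
    show cyc A y * f (y (p - p)) (y (q - p)) = _
    rw [sub_self]
  rw [h1, sum_cons]
  refine Finset.sum_congr rfl fun u _ => ?_
  have h2 := PW_mark A k u u (q - p) (fun v => f u v)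
  have h3 : ∀ z : Fin k → U, cyc A (Fin.cons u z : Fin (k + 1) → U) *
      f ((Fin.cons u z : Fin (k + 1) → U) 0) ((Fin.cons u z : Fin (k + 1) → U) (q - p)) =
      PW A k u z u * f u ((Fin.cons u z : Fin (k + 1) → U) (q - p)) := by
    intro z
    rw [cyc_cons, Fin.cons_zero]
  simp only [h3]
  rw [h2]
  refine Finset.sum_congr rfl fun v _ => ?_
  rw [h.pow_symm _ v u]
  ring

theorem cyc_sum {A : Matrix U U ℝ} {k : ℕ} :
    ∑ x : Fin (k + 1) → U, cyc A x = (A ^ (k + 1)).trace := by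
  rw [sum_cons, Matrix.trace]
  refine Finset.sum_congr rfl fun u _ => ?_
  simp only [cyc_cons, PW_sum, Matrix.diag]

/-- the admissible ears: `l`, `n - l` are the lengths of the arcs, `j` lies between them -/
def Between (n l j : ℕ) : Prop := j % 2 = l % 2 ∧ min l (n - l) ≤ j ∧ j ≤ max l (n - l)

theorem ear_log [Nonempty U] {A : Matrix U U ℝ} {d : ℝ} (h : Reg A d) {k : ℕ}
    (hk : (k + 1) % 2 = 0) (p q : Fin (k + 1)) (j : ℕ)
    (hj : Between (k + 1) ((q - p : Fin (k + 1)) : ℕ) j) :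
    (A ^ (k + 1)).trace *
      Real.log ((A ^ (k + 1)).trace / (Fintype.card U * d ^ (k + 1 - j))) ≤
    ∑ x : Fin (k + 1) → U, cyc A x * Real.log ((A ^ j) (x p) (x q)) := by
  rw [cyc_pair h p q fun u v => Real.log ((A ^ j) u v)]
  have hlt : ((q - p : Fin (k + 1)) : ℕ) < k + 1 := (q - p).isLt
  generalize ((q - p : Fin (k + 1)) : ℕ) = l at hj hlt
  obtain ⟨h1, h2, h3⟩ := hj
  rcases le_total l (k + 1 - l) with hl | hl
  · rw [min_eq_left hl] at h2
    rw [max_eq_right hl] at h3
    obtain ⟨s, hs⟩ : ∃ s, j = l + 2 * s := ⟨(j - l) / 2, by omega⟩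
    obtain ⟨m, hm⟩ : ∃ m, k + 1 - l = s + (l + s + 2 * m) :=
      ⟨(k + 1 - l - l - 2 * s) / 2, by omega⟩
    have h4 := h.log_ear l s m
    rw [← hm, show l + (k + 1 - l) = k + 1 by omega, ← hs] at h4
    rw [show k + 1 - j = l + 2 * m by omega]
    exact h4
  · rw [min_eq_right hl] at h2
    rw [max_eq_left hl] at h3
    set l' := k + 1 - l with hl'
    obtain ⟨s, hs⟩ : ∃ s, j = l' + 2 * s := ⟨(j - l') / 2, by omega⟩
    obtain ⟨m, hm⟩ : ∃ m, l = s + (l' + s + 2 * m) := ⟨(l - l' - 2 * s) / 2, by omega⟩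
    have h4 := h.log_ear l' s m
    rw [← hm, show l' + l = k + 1 by omega, ← hs] at h4
    rw [show k + 1 - j = l' + 2 * m by omega]
    refine h4.trans (le_of_eq ?_)
    exact Finset.sum_congr rfl fun u _ => Finset.sum_congr rfl fun v _ => by ring

omit [DecidableEq U] in
theorem cyc_nonneg {A : Matrix U U ℝ} {d : ℝ} (h : Reg A d) {k : ℕ} (x : Fin (k + 1) → U) :
    0 ≤ cyc A x := Finset.prod_nonneg fun _ _ => h.nonneg _ _

theorem Reg.pow_pos_add {A : Matrix U U ℝ} {d : ℝ} (h : Reg A d) (l s : ℕ) {u v : U}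
    (hl : 0 < (A ^ l) u v) : 0 < (A ^ (l + 2 * s)) u v := by
  have h3 : 0 < (A ^ (2 * s)) v v := by
    rw [two_mul, Reg.pow_add_apply]
    have h4 : ∃ w, 0 < (A ^ s) v w := by
      by_contra hcon
      push Not at hcon
      have : ∑ w, (A ^ s) v w ≤ 0 := Finset.sum_nonpos fun w _ => hcon w
      rw [h.pow_row] at this
      exact absurd this (not_le.2 (pow_pos h.pos s))
    obtain ⟨w, hw⟩ := h4
    refine Finset.sum_pos' (fun x _ => mul_nonneg (h.pow_nonneg _ _ _) (h.pow_nonneg _ _ _))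
      ⟨w, mem_univ w, mul_pos hw (by rw [h.pow_symm]; exact hw)⟩
  rw [Reg.pow_add_apply]
  exact Finset.sum_pos' (fun x _ => mul_nonneg (h.pow_nonneg _ _ _) (h.pow_nonneg _ _ _))
    ⟨v, mem_univ v, mul_pos hl h3⟩

theorem ear_pos {A : Matrix U U ℝ} {d : ℝ} (h : Reg A d) {k : ℕ}
    (hk : (k + 1) % 2 = 0) (p q : Fin (k + 1)) (j : ℕ)
    (hj : Between (k + 1) ((q - p : Fin (k + 1)) : ℕ) j) (x : Fin (k + 1) → U)
    (hx : 0 < cyc A x) : 0 < (A ^ j) (x p) (x q) := by
  rcases (h.pow_nonneg j (x p) (x q)).eq_or_lt with h0 | h0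
  swap
  · exact h0
  exfalso
  classical
  have h1 := cyc_pair h p q fun u v => if (A ^ j) u v = 0 then (1 : ℝ) else 0
  have hz : ∑ u, ∑ v, (A ^ ((q - p : Fin (k + 1)) : ℕ)) u v *
      (A ^ (k + 1 - ((q - p : Fin (k + 1)) : ℕ))) u v *
        (if (A ^ j) u v = 0 then (1 : ℝ) else 0) = 0 := by
    refine Finset.sum_eq_zero fun u _ => Finset.sum_eq_zero fun v _ => ?_
    by_cases hj0 : (A ^ j) u v = 0
    swap
    · rw [if_neg hj0, mul_zero]
    rw [if_pos hj0, mul_one]
    have hlt : ((q - p : Fin (k + 1)) : ℕ) < k + 1 := (q - p).isLt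
    generalize ((q - p : Fin (k + 1)) : ℕ) = l at hj hlt
    obtain ⟨h1, h2, h3⟩ := hj
    rcases le_total l (k + 1 - l) with hl | hl
    · rw [min_eq_left hl] at h2
      obtain ⟨s, hs⟩ : ∃ s, j = l + 2 * s := ⟨(j - l) / 2, by omega⟩
      rcases (h.pow_nonneg l u v).eq_or_lt with h5 | h5
      · rw [← h5, zero_mul]
      · have := h.pow_pos_add l s h5
        rw [← hs, hj0] at this
        exact absurd this (lt_irrefl _)
    · rw [min_eq_right hl] at h2
      obtain ⟨s, hs⟩ : ∃ s, j = (k + 1 - l) + 2 * s := ⟨(j - (k + 1 - l)) / 2, by omega⟩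
      rcases (h.pow_nonneg (k + 1 - l) u v).eq_or_lt with h5 | h5
      · rw [← h5, mul_zero]
      · have := h.pow_pos_add (k + 1 - l) s h5
        rw [← hs, hj0] at this
        exact absurd this (lt_irrefl _)
  rw [hz] at h1
  have h2 := (Finset.sum_eq_zero_iff_of_nonneg fun y _ => mul_nonneg (cyc_nonneg h y)
    (by split_ifs <;> norm_num)).1 h1 x (mem_univ x)
  rw [if_pos h0.symm, mul_one] at h2
  linarith

/-- weighted Jensen inequality for the exponential -/
theorem exp_jensen {ι : Type*} [Fintype ι] (c z : ι → ℝ) {t s : ℝ} (hc : ∀ i, 0 ≤ c i)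
    (ht : ∑ i, c i = t) (hz : t * s ≤ ∑ i, c i * z i) :
    t * Real.exp s ≤ ∑ i, c i * Real.exp (z i) := by
  have h1 : ∀ i, c i * (Real.exp s * (1 + (z i - s))) ≤ c i * Real.exp (z i) := by
    intro i
    refine mul_le_mul_of_nonneg_left ?_ (hc i)
    have h2 := Real.add_one_le_exp (z i - s)
    have h3 := mul_le_mul_of_nonneg_left h2 (Real.exp_pos s).le
    rw [← Real.exp_add] at h3
    rw [show s + (z i - s) = z i by ring] at h3
    linarith
  refine le_trans ?_ (Finset.sum_le_sum fun i _ => h1 i)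
  have h4 : ∑ i, c i * (Real.exp s * (1 + (z i - s))) =
      Real.exp s * ((1 - s) * t + ∑ i, c i * z i) := by
    rw [← ht, Finset.mul_sum, ← Finset.sum_add_distrib, Finset.mul_sum]
    exact Finset.sum_congr rfl fun i _ => by ring
  rw [h4]
  have h5 := mul_le_mul_of_nonneg_left hz (Real.exp_pos s).le
  nlinarith

/-- **closed walks with ears** -/
theorem ears [Nonempty U] {A : Matrix U U ℝ} {d : ℝ} (h : Reg A d) {k : ℕ}
    (hk : (k + 1) % 2 = 0) (L : List (Fin (k + 1) × Fin (k + 1) × ℕ))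
    (hL : ∀ e ∈ L, Between (k + 1) ((e.2.1 - e.1 : Fin (k + 1)) : ℕ) e.2.2) :
    (A ^ (k + 1)).trace * (L.map fun e =>
      (A ^ (k + 1)).trace / (Fintype.card U * d ^ (k + 1 - e.2.2))).prod ≤
    ∑ x : Fin (k + 1) → U, cyc A x * (L.map fun e => (A ^ e.2.2) (x e.1) (x e.2.1)).prod := by
  have hN : (0 : ℝ) < Fintype.card U := by exact_mod_cast Fintype.card_pos
  have ht : 0 < (A ^ (k + 1)).trace := by
    obtain ⟨m, hm⟩ : ∃ m, k + 1 = 2 * m := ⟨(k + 1) / 2, by omega⟩
    rw [hm]; exact h.trace_pos m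
  set t := (A ^ (k + 1)).trace with htd
  have e1 : (L.map fun e => t / (Fintype.card U * d ^ (k + 1 - e.2.2))).prod =
      Real.exp (L.map fun e => Real.log (t / (Fintype.card U * d ^ (k + 1 - e.2.2)))).sum := by
    clear hL
    induction L with
    | nil => simp
    | cons e L ih =>
      rw [List.map_cons, List.prod_cons, List.map_cons, List.sum_cons, Real.exp_add, ih,
        Real.exp_log (div_pos ht (mul_pos hN (pow_pos h.pos _)))]
  have e2 : ∀ x : Fin (k + 1) → U, cyc A x *
      (L.map fun e => (A ^ e.2.2) (x e.1) (x e.2.1)).prod = cyc A x *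
      Real.exp (L.map fun e => Real.log ((A ^ e.2.2) (x e.1) (x e.2.1))).sum := by
    intro x
    rcases (cyc_nonneg h x).eq_or_lt with h0 | h0
    · rw [← h0, zero_mul, zero_mul]
    congr 1
    induction L with
    | nil => simp
    | cons e L ih =>
      rw [List.map_cons, List.prod_cons, List.map_cons, List.sum_cons, Real.exp_add,
        ih (fun e he => hL e (List.mem_cons_of_mem _ he)) (by
          clear ih hL e1
          induction L with
          | nil => simp
          | cons e L ih2 =>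
            rw [List.map_cons, List.prod_cons, List.map_cons, List.sum_cons, Real.exp_add, ih2,
              Real.exp_log (div_pos ht (mul_pos hN (pow_pos h.pos _)))]),
        Real.exp_log (ear_pos h hk e.1 e.2.1 e.2.2 (hL e List.mem_cons_self) x h0)]
  rw [e1]
  simp only [e2]
  refine exp_jensen (fun x => cyc A x) _ (fun x => cyc_nonneg h x) cyc_sum ?_
  clear e1 e2
  induction L with
  | nil => simp
  | cons e L ih =>
    simp only [List.map_cons, List.sum_cons, mul_add, Finset.sum_add_distrib]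
    exact add_le_add (ear_log h hk e.1 e.2.1 e.2.2 (hL e List.mem_cons_self))
      (ih fun e he => hL e (List.mem_cons_of_mem _ he))

end Vale.Agent.P050.H257
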