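import Vale.Agent.P050.R3.H115.RevNum
import Vale.Agent.P050.R3.H257.Walk

/-!
# P050, cycles with ears: sums over closed walks, two-sided version
-/

namespace Vale.Agent.P050.Ears

open Finset Matrix

open Vale.Agent.P050.H257 (PW PW_sum PW_mark PW_prod exp_jensen Between)

variable {S : Type*} [Fintype S] [DecidableEq S]

omit [Fintype S] [DecidableEq S] in
theorem cyc_eq (A : Matrix S S ℝ) {k : ℕ} (x : Fin (k + 1) → S) :
    cyc A x = H257.cyc A x := rfl

theorem cyc_pair (A : Matrix S S ℝ) {k : ℕ} (p q : Fin (k + 1))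
    (f : S → S → ℝ) : ∑ x : Fin (k + 1) → S, cyc A x * f (x p) (x q) =
      ∑ u, ∑ v, (A ^ ((q - p : Fin (k + 1)) : ℕ)) u v *
        (A ^ (k + 1 - ((q - p : Fin (k + 1)) : ℕ))) v u * f u v := by
  have h1 : ∑ x : Fin (k + 1) → S, cyc A x * f (x p) (x q) =
      ∑ y : Fin (k + 1) → S, cyc A y * f (y 0) (y (q - p)) := by
    rw [← ((Equiv.addRight p).arrowCongr (Equiv.refl S)).sum_comp]
    refine Finset.sum_congr rfl fun y _ => ?_
    have e : ((Equiv.addRight p).arrowCongr (Equiv.refl S)) y = fun i => y (i - p) := by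
      funext i
      simp [Equiv.arrowCongr, sub_eq_add_neg]
    rw [e, cyc_eq, H257.cyc_rot]
    show cyc A y * f (y (p - p)) (y (q - p)) = _
    rw [sub_self]
  rw [h1, H257.sum_cons]
  refine Finset.sum_congr rfl fun u _ => ?_
  have h2 := PW_mark A k u u (q - p) (fun v => f u v)
  have h3 : ∀ z : Fin k → S, cyc A (Fin.cons u z : Fin (k + 1) → S) *
      f ((Fin.cons u z : Fin (k + 1) → S) 0) ((Fin.cons u z : Fin (k + 1) → S) (q - p)) =
      PW A k u z u * f u ((Fin.cons u z : Fin (k + 1) → S) (q - p)) := by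
    intro z
    rw [cyc_eq, H257.cyc_cons, Fin.cons_zero]
  simp only [h3]
  rw [h2]
  refine Finset.sum_congr rfl fun v _ => ?_
  ring

/-- the weight of the closed walks that start on the side `b` -/
noncomputable def cycb (A : Matrix S S ℝ) (c : S → Bool) (b : Bool) {k : ℕ}
    (x : Fin (k + 1) → S) : ℝ := if c (x 0) = b then cyc A x else 0

theorem cycb_sum {A : Matrix S S ℝ} {c : S → Bool} (b : Bool) {k : ℕ} :
    ∑ x : Fin (k + 1) → S, cycb A c b x = tr A c b (k + 1) := by
  rw [H257.sum_cons, tr]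
  refine Finset.sum_congr rfl fun u _ => ?_
  simp only [cycb, Fin.cons_zero]
  split_ifs
  · simp only [cyc_eq, H257.cyc_cons, PW_sum]
  · simp

variable {A : Matrix S S ℝ} {μ : S → ℝ} {c : S → Bool} (h : Rev A μ c)

include h

omit [DecidableEq S] in
theorem cyc_nonneg {k : ℕ} (x : Fin (k + 1) → S) :
    0 ≤ cyc A x := Finset.prod_nonneg fun _ _ => h.nonneg _ _

omit [DecidableEq S] in
theorem cycb_nonneg (b : Bool) {k : ℕ} (x : Fin (k + 1) → S) :
    0 ≤ cycb A c b x := by
  unfold cycb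
  split_ifs
  · exact cyc_nonneg h x
  · exact le_rfl

omit [DecidableEq S] in
theorem side_walk {k : ℕ} (x : Fin (k + 1) → S) (hx : cyc A x ≠ 0) (i : ℕ) (hi : i < k + 1) :
    c (x ⟨i, hi⟩) = xor (c (x 0)) (decide (i % 2 = 1)) := by
  induction i with
  | zero => simp
  | succ i ih =>
    have h1 := ih (by omega)
    have h2 : A (x ⟨i, by omega⟩) (x (⟨i, by omega⟩ + 1)) ≠ 0 := by
      intro h0
      exact hx (Finset.prod_eq_zero (mem_univ (⟨i, by omega⟩ : Fin (k + 1))) h0)
    have e : (⟨i, by omega⟩ : Fin (k + 1)) + 1 = ⟨i + 1, hi⟩ := by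
      apply Fin.ext
      rw [Fin.val_add_one_of_lt]
      rw [Fin.lt_def, Fin.val_last]
      show i < k
      omega
    rw [e] at h2
    have h3 : c (x ⟨i, by omega⟩) ≠ c (x ⟨i + 1, hi⟩) := fun h4 => h2 (h.alt _ _ h4)
    rw [h1] at h3
    have h4 : decide ((i + 1) % 2 = 1) = !decide (i % 2 = 1) := by
      rcases Nat.mod_two_eq_zero_or_one i with h5 | h5
      · simp [h5, Nat.add_mod]
      · simp [h5, Nat.add_mod]
    rw [h4]
    revert h3
    cases c (x ⟨i + 1, hi⟩) <;> cases c (x 0) <;> cases decide (i % 2 = 1) <;> simp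

/-- the side of the position `p` -/
def sd (b : Bool) (p : ℕ) : Bool := xor b (decide (p % 2 = 1))

omit h in
theorem sd_inj {a b : Bool} (p : ℕ) : sd a p = sd b p ↔ a = b := by
  unfold sd
  cases a <;> cases b <;> cases decide (p % 2 = 1) <;> simp

theorem tr_sd (b : Bool) (p : ℕ) (n : ℕ) (hn : 1 ≤ n) : tr A c (sd b p) n = tr A c b n := by
  unfold sd
  cases decide (p % 2 = 1)
  · simp
  · rw [Bool.xor_true, h.tr_not b n hn]

omit [DecidableEq S] in
theorem cycb_shift (b : Bool) {k : ℕ} (p : Fin (k + 1)) (x : Fin (k + 1) → S) (y : ℝ) :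
    cycb A c b x * y = cyc A x * (if c (x p) = sd b p then y else 0) := by
  rcases eq_or_ne (cyc A x) 0 with h0 | h0
  · unfold cycb
    rw [h0]; simp
  · have h1 := side_walk h x h0 p p.isLt
    have h2 : (⟨(p : ℕ), p.isLt⟩ : Fin (k + 1)) = p := rfl
    rw [h2] at h1
    have h3 : (c (x p) = sd b p) ↔ c (x 0) = b := by
      rw [h1]
      exact sd_inj (p : ℕ)
    unfold cycb
    by_cases hb : c (x 0) = b
    · rw [if_pos hb, if_pos (h3.2 hb)]
    · rw [if_neg hb, if_neg (fun h4 => hb (h3.1 h4)), zero_mul, mul_zero]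

theorem ear_log (b : Bool) {k : ℕ}
    (hk : (k + 1) % 2 = 0) (p q : Fin (k + 1)) (j : ℕ)
    (hj : Between (k + 1) ((q - p : Fin (k + 1)) : ℕ) j) :
    tr A c b (k + 1) * Real.log (tr A c b (k + 1)) ≤
    ∑ x : Fin (k + 1) → S, cycb A c b x * Real.log (kap A μ j (x p) (x q)) := by
  have e0 : ∑ x : Fin (k + 1) → S, cycb A c b x * Real.log (kap A μ j (x p) (x q)) =
      ∑ x : Fin (k + 1) → S, cyc A x *
        (fun u v => if c u = sd b p then Real.log (kap A μ j u v) else 0) (x p) (x q) :=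
    Finset.sum_congr rfl fun x _ => cycb_shift h b p x _
  rw [e0, cyc_pair A p q fun u v => if c u = sd b p then Real.log (kap A μ j u v) else 0]
  have hlt : ((q - p : Fin (k + 1)) : ℕ) < k + 1 := (q - p).isLt
  generalize ((q - p : Fin (k + 1)) : ℕ) = l at hj hlt
  rw [← tr_sd h b p (k + 1) (by omega)]
  generalize sd b p = b'
  obtain ⟨h1, h2, h3⟩ := hj
  rcases le_total l (k + 1 - l) with hl | hl
  · rw [min_eq_left hl] at h2
    rw [max_eq_right hl] at h3
    obtain ⟨s, hs⟩ : ∃ s, j = l + 2 * s := ⟨(j - l) / 2, by omega⟩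
    obtain ⟨m, hm⟩ : ∃ m, k + 1 - l = s + (l + s + 2 * m) :=
      ⟨(k + 1 - l - l - 2 * s) / 2, by omega⟩
    have h4 := h.log_ear b' l s m
    rw [← hm, show l + (k + 1 - l) = k + 1 by omega, ← hs] at h4
    refine h4.trans (le_of_eq ?_)
    refine Finset.sum_congr rfl fun u _ => Finset.sum_congr rfl fun v _ => ?_
    split_ifs
    · rfl
    · rw [mul_zero]
  · rw [min_eq_right hl] at h2
    rw [max_eq_left hl] at h3
    obtain ⟨l', hl'⟩ : ∃ l', l' = k + 1 - l := ⟨_, rfl⟩
    rw [← hl'] at h2 hl ⊢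
    obtain ⟨s, hs⟩ : ∃ s, j = l' + 2 * s := ⟨(j - l') / 2, by omega⟩
    obtain ⟨m, hm⟩ : ∃ m, l = s + (l' + s + 2 * m) := ⟨(l - l' - 2 * s) / 2, by omega⟩
    have h4 := h.log_ear (sd b' l) l' s m
    rw [← hm, show l' + l = k + 1 by omega, ← hs, tr_sd h b' l (k + 1) (by omega)] at h4
    refine h4.trans (le_of_eq ?_)
    rw [Finset.sum_comm]
    refine Finset.sum_congr rfl fun u _ => Finset.sum_congr rfl fun v _ => ?_
    rcases eq_or_ne ((A ^ l) u v) 0 with h0 | h0
    · rw [h0]; simp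
    · have h5 : c v = sd (c u) l := by
        by_contra hcon
        exact h0 (h.pow_alt l u v hcon)
      have h6 : (c v = sd b' l) ↔ c u = b' := by
        rw [h5]; exact sd_inj l
      rw [h.kap_symm j v u]
      by_cases hb : c u = b'
      · rw [if_pos hb, if_pos (h6.2 hb)]; ring
      · rw [if_neg hb, if_neg (fun h7 => hb (h6.1 h7)), mul_zero]

theorem ear_pos (b : Bool) {k : ℕ}
    (hk : (k + 1) % 2 = 0) (p q : Fin (k + 1)) (j : ℕ)
    (hj : Between (k + 1) ((q - p : Fin (k + 1)) : ℕ) j) (x : Fin (k + 1) → S)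
    (hx : 0 < cycb A c b x) : 0 < kap A μ j (x p) (x q) := by
  have hx' : 0 < cyc A x := by
    unfold cycb at hx
    split_ifs at hx with h1
    · exact hx
    · exact absurd hx (lt_irrefl _)
  rcases (h.pow_nonneg j (x p) (x q)).eq_or_lt with h0 | h0
  swap
  · exact div_pos h0 (h.pos _)
  exfalso
  classical
  have h1 := cyc_pair A p q fun u v => if (A ^ j) u v = 0 then (1 : ℝ) else 0
  have hsym : ∀ (i : ℕ) (u v : S), 0 < (A ^ i) u v → 0 < (A ^ i) v u := by
    intro i u v hi
    have h2 := h.pow_rev i u v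
    have h3 : 0 < μ v * (A ^ i) v u := h2 ▸ mul_pos (h.pos u) hi
    exact pos_of_mul_pos_right h3 (h.pos v).le
  have hz : ∑ u, ∑ v, (A ^ ((q - p : Fin (k + 1)) : ℕ)) u v *
      (A ^ (k + 1 - ((q - p : Fin (k + 1)) : ℕ))) v u *
        (if (A ^ j) u v = 0 then (1 : ℝ) else 0) = 0 := by
    refine Finset.sum_eq_zero fun u _ => Finset.sum_eq_zero fun v _ => ?_
    by_cases hj0 : (A ^ j) u v = 0
    swap
    · rw [if_neg hj0, mul_zero]
    rw [if_pos hj0, mul_one]
    have hlt : ((q - p : Fin (k + 1)) : ℕ) < k + 1 := (q - p).isLt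
    generalize ((q - p : Fin (k + 1)) : ℕ) = l at hj hlt
    obtain ⟨h1, h2, h3⟩ := hj
    rcases le_total l (k + 1 - l) with hl | hl
    · rw [min_eq_left hl] at h2
      obtain ⟨s, hs⟩ : ∃ s, j = l + 2 * s := ⟨(j - l) / 2, by omega⟩
      rcases (h.pow_nonneg l u v).eq_or_lt with h5 | h5
      · rw [← h5, zero_mul]
      · have := h.pow_pos_add l s h5
        rw [← hs, hj0] at this
        exact absurd this (lt_irrefl _)
    · rw [min_eq_right hl] at h2
      obtain ⟨s, hs⟩ : ∃ s, j = (k + 1 - l) + 2 * s := ⟨(j - (k + 1 - l)) / 2, by omega⟩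
      rcases (h.pow_nonneg (k + 1 - l) v u).eq_or_lt with h5 | h5
      · rw [← h5, mul_zero]
      · have := h.pow_pos_add (k + 1 - l) s (hsym _ _ _ h5)
        rw [← hs, hj0] at this
        exact absurd this (lt_irrefl _)
  rw [hz] at h1
  have h2 := (Finset.sum_eq_zero_iff_of_nonneg fun y _ => mul_nonneg (cyc_nonneg h y)
    (by split_ifs <;> norm_num)).1 h1 x (mem_univ x)
  rw [if_pos h0.symm, mul_one] at h2
  linarith

/-- **closed walks with ears** -/
theorem ears (b : Bool) {k : ℕ}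
    (hk : (k + 1) % 2 = 0) (L : List (Fin (k + 1) × Fin (k + 1) × ℕ))
    (hL : ∀ e ∈ L, Between (k + 1) ((e.2.1 - e.1 : Fin (k + 1)) : ℕ) e.2.2) :
    tr A c b (k + 1) * tr A c b (k + 1) ^ L.length ≤
    ∑ x : Fin (k + 1) → S, cycb A c b x *
      (L.map fun e => kap A μ e.2.2 (x e.1) (x e.2.1)).prod := by
  have ht : 0 < tr A c b (k + 1) := by
    obtain ⟨m, hm⟩ : ∃ m, k + 1 = 2 * m := ⟨(k + 1) / 2, by omega⟩
    rw [hm]; exact lt_of_lt_of_le one_pos (h.tr_ge b m)
  set t := tr A c b (k + 1) with htd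
  have e1 : t ^ L.length = Real.exp (L.length * Real.log t) := by
    rw [← Real.log_pow, Real.exp_log (pow_pos ht _)]
  have e2 : ∀ x : Fin (k + 1) → S, cycb A c b x *
      (L.map fun e => kap A μ e.2.2 (x e.1) (x e.2.1)).prod = cycb A c b x *
      Real.exp (L.map fun e => Real.log (kap A μ e.2.2 (x e.1) (x e.2.1))).sum := by
    intro x
    rcases (cycb_nonneg h b x).eq_or_lt with h0 | h0
    · rw [← h0, zero_mul, zero_mul]
    congr 1
    clear e1
    induction L with
    | nil => simp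
    | cons e L ih =>
      rw [List.map_cons, List.prod_cons, List.map_cons, List.sum_cons, Real.exp_add,
        ih (fun e he => hL e (List.mem_cons_of_mem _ he)),
        Real.exp_log (ear_pos h b hk e.1 e.2.1 e.2.2 (hL e List.mem_cons_self) x h0)]
  rw [e1]
  simp only [e2]
  refine exp_jensen (fun x => cycb A c b x) _ (fun x => cycb_nonneg h b x) (cycb_sum b) ?_
  clear e1 e2
  induction L with
  | nil => simp
  | cons e L ih =>
    simp only [List.map_cons, List.sum_cons, mul_add, Finset.sum_add_distrib, List.length_cons]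
    have h1 := ear_log h b hk e.1 e.2.1 e.2.2 (hL e List.mem_cons_self)
    have h2 := ih fun e he => hL e (List.mem_cons_of_mem _ he)
    rw [← htd] at h1
    push_cast
    nlinarith [h1, h2]

end Vale.Agent.P050.Ears
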