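import Mathlib

/-!
# P050, cycles with ears: the inequalities for the closed walks of a regular kernel

`A` is a symmetric nonnegative matrix with all row sums equal to `d`. The closed walks of even
length `n = a + b` carry the weight `A ^ a u v * A ^ b u v` on the pairs at distance `a`.
-/

namespace Vale.Agent.P050.H257

open Finset Matrix

variable {U : Type*} [Fintype U] [DecidableEq U]

/-- log-sum inequality -/
theorem log_sum {ι : Type*} (s : Finset ι) (w f : ι → ℝ) (hw : ∀ i ∈ s, 0 ≤ w i)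
    (hf : ∀ i ∈ s, 0 ≤ f i) :
    (∑ i ∈ s, w i * f i) * Real.log ((∑ i ∈ s, w i * f i) / ∑ i ∈ s, w i) ≤
      ∑ i ∈ s, w i * f i * Real.log (f i) := by
  set F := ∑ i ∈ s, w i * f i with hF
  set S := ∑ i ∈ s, w i with hS
  have hF0 : 0 ≤ F := Finset.sum_nonneg fun i hi => mul_nonneg (hw i hi) (hf i hi)
  have hS0 : 0 ≤ S := Finset.sum_nonneg hw
  rcases hF0.eq_or_lt with h0 | hFp
  · rw [← h0, zero_mul]
    have hz : ∀ i ∈ s, w i * f i = 0 := by
      intro i hi
      have := (Finset.sum_eq_zero_iff_of_nonneg fun i hi => mul_nonneg (hw i hi) (hf i hi)).1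
        (hF.symm.trans h0.symm) i hi
      exact this
    refine (Finset.sum_nonneg fun i hi => ?_)
    rw [hz i hi, zero_mul]
  have hSp : 0 < S := by
    rcases hS0.eq_or_lt with h | h
    · exfalso
      have hz := (Finset.sum_eq_zero_iff_of_nonneg hw).1 (hS.symm.trans h.symm)
      have : F = 0 := by
        rw [hF]
        exact Finset.sum_eq_zero fun i hi => by rw [hz i hi, zero_mul]
      linarith
    · exact h
  have key : ∀ i ∈ s, w i * f i * Real.log (F / S) - w i * f i * Real.log (f i) ≤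
      w i * (F / S) - w i * f i := by
    intro i hi
    rcases (hf i hi).eq_or_lt with h | h
    · rw [← h]; simp only [mul_zero, zero_mul, sub_zero]
      exact mul_nonneg (hw i hi) (by positivity)
    · have h1 : Real.log (F / S) - Real.log (f i) ≤ (F / S) / f i - 1 := by
        rw [← Real.log_div (by positivity) h.ne']
        exact Real.log_le_sub_one_of_pos (by positivity)
      have h2 := mul_le_mul_of_nonneg_left h1 (mul_nonneg (hw i hi) h.le)
      have h3 : w i * f i * ((F / S) / f i - 1) = w i * (F / S) - w i * f i := by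
        field_simp
      linarith [h2, h3]
  have h4 := Finset.sum_le_sum key
  rw [Finset.sum_sub_distrib, Finset.sum_sub_distrib, ← Finset.sum_mul, ← Finset.sum_mul,
    ← hF, ← hS] at h4
  have h5 : S * (F / S) - F = 0 := by field_simp; ring
  linarith

/-- Jensen for the logarithm: `∑ c log r ≤ C log (T / C)` if `∑ c r ≤ T` -/
theorem log_jensen {ι : Type*} (s : Finset ι) (c r : ι → ℝ) {C T : ℝ} (hC : ∑ i ∈ s, c i = C)
    (hc : ∀ i ∈ s, 0 ≤ c i) (hr : ∀ i ∈ s, 0 < c i → 0 < r i)
    (hT : ∑ i ∈ s, c i * r i ≤ T) (hCp : 0 < C) :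
    ∑ i ∈ s, c i * Real.log (r i) ≤ C * Real.log (T / C) := by
  have hT0 : 0 < T := by
    refine lt_of_lt_of_le ?_ hT
    obtain ⟨i, hi, hci⟩ : ∃ i ∈ s, 0 < c i := by
      by_contra hcon
      push Not at hcon
      have : ∑ i ∈ s, c i ≤ 0 := Finset.sum_nonpos hcon
      linarith
    refine Finset.sum_pos' (fun i hi => ?_) ⟨i, hi, mul_pos hci (hr i hi hci)⟩
    rcases (hc i hi).eq_or_lt with h | h
    · rw [← h, zero_mul]
    · exact (mul_pos h (hr i hi h)).le
  have key : ∀ i ∈ s, c i * Real.log (r i) - c i * Real.log (T / C) ≤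
      c i * r i * (C / T) - c i := by
    intro i hi
    rcases (hc i hi).eq_or_lt with h | h
    · rw [← h]; simp
    · have hri := hr i hi h
      have h1 : Real.log (r i) - Real.log (T / C) ≤ r i / (T / C) - 1 := by
        rw [← Real.log_div hri.ne' (by positivity)]
        exact Real.log_le_sub_one_of_pos (by positivity)
      have h2 := mul_le_mul_of_nonneg_left h1 h.le
      have h3 : c i * (r i / (T / C) - 1) = c i * r i * (C / T) - c i := by
        field_simp
      linarith
  have h4 := Finset.sum_le_sum key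
  rw [Finset.sum_sub_distrib, Finset.sum_sub_distrib, ← Finset.sum_mul, ← Finset.sum_mul,
    hC] at h4
  have h5 : (∑ i ∈ s, c i * r i) * (C / T) ≤ T * (C / T) :=
    mul_le_mul_of_nonneg_right hT (by positivity)
  have h6 : T * (C / T) = C := by field_simp
  linarith

/-- the hypotheses on the kernel -/
structure Reg (A : Matrix U U ℝ) (d : ℝ) : Prop where
  nonneg : ∀ u v, 0 ≤ A u v
  symm : ∀ u v, A u v = A v u
  row : ∀ u, ∑ v, A u v = d
  pos : 0 < d

namespace Reg

variable {A : Matrix U U ℝ} {d : ℝ} (h : Reg A d)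

include h

theorem pow_nonneg (k : ℕ) (u v : U) : 0 ≤ (A ^ k) u v := by
  induction k generalizing u v with
  | zero => rw [pow_zero, Matrix.one_apply]; split_ifs <;> norm_num
  | succ k ih =>
    rw [pow_succ, Matrix.mul_apply]
    exact Finset.sum_nonneg fun w _ => mul_nonneg (ih u w) (h.nonneg w v)

theorem pow_symm (k : ℕ) (u v : U) : (A ^ k) u v = (A ^ k) v u := by
  have hA : Aᵀ = A := by ext a b; exact (h.symm a b).symm ▸ rfl
  have : (A ^ k)ᵀ = A ^ k := by rw [Matrix.transpose_pow, hA]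
  calc (A ^ k) u v = (A ^ k)ᵀ v u := rfl
    _ = (A ^ k) v u := by rw [this]

theorem pow_row (k : ℕ) (u : U) : ∑ v, (A ^ k) u v = d ^ k := by
  induction k with
  | zero => simp [Matrix.one_apply]
  | succ k ih =>
    simp only [pow_succ, Matrix.mul_apply]
    rw [Finset.sum_comm]
    simp only [← Finset.mul_sum, h.row, ← Finset.sum_mul, ih]

omit h in
theorem pow_add_apply (a b : ℕ) (u v : U) :
    (A ^ (a + b)) u v = ∑ w, (A ^ a) u w * (A ^ b) w v := by
  rw [pow_add, Matrix.mul_apply]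

/-- the weight of all closed walks -/
theorem trace_eq (a b : ℕ) : (A ^ (a + b)).trace = ∑ u, ∑ v, (A ^ a) u v * (A ^ b) u v := by
  simp only [Matrix.trace, Matrix.diag]
  refine Finset.sum_congr rfl fun u _ => ?_
  rw [pow_add_apply]
  exact Finset.sum_congr rfl fun v _ => by rw [h.pow_symm b v u]

theorem trace_ge [Nonempty U] (m : ℕ) : d ^ (2 * m) ≤ (A ^ (2 * m)).trace := by
  rw [two_mul, h.trace_eq m m]
  have hN : (0 : ℝ) < Fintype.card U := by exact_mod_cast Fintype.card_pos
  have h1 : (∑ p : U × U, (A ^ m) p.1 p.2) ^ 2 ≤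
      ((univ : Finset (U × U)).card : ℝ) * ∑ p : U × U, ((A ^ m) p.1 p.2) ^ 2 :=
    sq_sum_le_card_mul_sum_sq
  rw [Fintype.sum_prod_type, Fintype.sum_prod_type] at h1
  simp only [h.pow_row] at h1
  rw [Finset.sum_const, Finset.card_univ, nsmul_eq_mul, Finset.card_univ, Fintype.card_prod,
    Nat.cast_mul] at h1
  have h2 : ∑ x : U, ∑ y : U, ((A ^ m) x y) ^ 2 = ∑ u, ∑ v, (A ^ m) u v * (A ^ m) u v := by
    simp only [sq]
  rw [h2] at h1
  have h3 : ((Fintype.card U : ℝ) * d ^ m) ^ 2 =
      ((Fintype.card U : ℝ) * Fintype.card U) * (d ^ (m + m)) := by ring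
  rw [h3] at h1
  exact le_of_mul_le_mul_left h1 (by positivity)

theorem trace_pos [Nonempty U] (m : ℕ) : 0 < (A ^ (2 * m)).trace :=
  lt_of_lt_of_le (pow_pos h.pos _) (h.trace_ge m)

/-- (i) -/
theorem log_long (a b : ℕ) :
    (A ^ (a + b)).trace * Real.log ((A ^ (a + b)).trace / (Fintype.card U * d ^ b)) ≤
      ∑ u, ∑ v, (A ^ a) u v * (A ^ b) u v * Real.log ((A ^ a) u v) := by
  have h1 := log_sum (univ : Finset (U × U)) (fun p => (A ^ b) p.1 p.2)
    (fun p => (A ^ a) p.1 p.2) (fun p _ => h.pow_nonneg b _ _) (fun p _ => h.pow_nonneg a _ _)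
  rw [Fintype.sum_prod_type, Fintype.sum_prod_type, Fintype.sum_prod_type] at h1
  simp only [h.pow_row] at h1
  rw [Finset.sum_const, Finset.card_univ, nsmul_eq_mul] at h1
  have h2 : ∑ x : U, ∑ y : U, (A ^ b) x y * (A ^ a) x y = (A ^ (a + b)).trace := by
    rw [h.trace_eq]; simp only [mul_comm]
  rw [h2] at h1
  refine h1.trans (le_of_eq ?_)
  exact Finset.sum_congr rfl fun u _ => Finset.sum_congr rfl fun v _ => by ring

/-- (ii) -/
theorem log_short (a m : ℕ) :
    - (((2 * m : ℕ) : ℝ) * Real.log d) * (A ^ (a + (a + 2 * m))).trace ≤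
      ∑ u, ∑ v, (A ^ a) u v * (A ^ (a + 2 * m)) u v *
        (Real.log ((A ^ a) u v) - Real.log ((A ^ (a + 2 * m)) u v)) := by
  rw [h.trace_eq a (a + 2 * m), Finset.mul_sum]
  refine Finset.sum_le_sum fun u _ => ?_
  -- fix `u`
  set g : U → ℝ := fun v => (A ^ a) u v with hg
  set k : U → ℝ := fun v => (A ^ (a + 2 * m)) u v with hk
  have hk' : ∀ v, k v = ∑ w, (A ^ (2 * m)) v w * g w := by
    intro v
    simp only [hk, hg]
    rw [pow_add_apply]
    exact Finset.sum_congr rfl fun w _ => by rw [h.pow_symm (2 * m) w v, mul_comm]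
  have hg0 : ∀ v, 0 ≤ g v := fun v => h.pow_nonneg a u v
  have e1 : ∑ v, g v * k v * Real.log (g v) =
      ∑ v, g v * ∑ w, (A ^ (2 * m)) v w * g w * Real.log (g w) := by
    have s1 : ∑ v, g v * k v * Real.log (g v) =
        ∑ v, ∑ w, g v * Real.log (g v) * ((A ^ (2 * m)) v w * g w) := by
      refine Finset.sum_congr rfl fun v _ => ?_
      rw [hk' v, ← Finset.mul_sum]; ring
    rw [s1, Finset.sum_comm]
    refine Finset.sum_congr rfl fun v _ => ?_
    rw [Finset.mul_sum]
    refine Finset.sum_congr rfl fun w _ => ?_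
    rw [h.pow_symm (2 * m) w v]; ring
  have e2 : ∀ v, g v * (k v * Real.log (k v / d ^ (2 * m))) ≤
      g v * ∑ w, (A ^ (2 * m)) v w * g w * Real.log (g w) := by
    intro v
    refine mul_le_mul_of_nonneg_left ?_ (hg0 v)
    have h1 := log_sum (univ : Finset U) (fun w => (A ^ (2 * m)) v w) g
      (fun w _ => h.pow_nonneg _ _ _) (fun w _ => hg0 w)
    rw [h.pow_row, ← hk' v] at h1
    exact h1
  have e3 : ∀ v, g v * k v * Real.log (k v) - ((2 * m : ℕ) : ℝ) * Real.log d * (g v * k v) =
      g v * (k v * Real.log (k v / d ^ (2 * m))) := by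
    intro v
    rcases eq_or_ne (k v) 0 with h0 | h0
    · rw [h0]; simp
    · rw [Real.log_div h0 (pow_ne_zero _ h.pos.ne'), Real.log_pow]; ring
  have e4 : ∑ v, (g v * k v * Real.log (k v) - ((2 * m : ℕ) : ℝ) * Real.log d * (g v * k v)) ≤
      ∑ v, g v * k v * Real.log (g v) := by
    rw [e1]
    exact Finset.sum_le_sum fun v _ => (e3 v).trans_le (e2 v)
  rw [Finset.sum_sub_distrib, ← Finset.mul_sum] at e4
  have e5 : ∑ v, g v * k v * (Real.log (g v) - Real.log (k v)) =
      ∑ v, g v * k v * Real.log (g v) - ∑ v, g v * k v * Real.log (k v) := by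
    rw [← Finset.sum_sub_distrib]
    exact Finset.sum_congr rfl fun v _ => by ring
  change -(((2 * m : ℕ) : ℝ) * Real.log d) * ∑ v, g v * k v ≤
    ∑ v, g v * k v * (Real.log (g v) - Real.log (k v))
  rw [e5]
  linarith

/-- (iii) -/
theorem log_test (l s c : ℕ) :
    (∑ u, ∑ w, (A ^ (l + s)) u w * (A ^ c) u w *
        (Real.log ((A ^ (l + s)) u w) - Real.log ((A ^ c) u w))) +
      ∑ u, ∑ v, (A ^ l) u v * (A ^ (s + c)) u v * Real.log ((A ^ (s + c)) u v) ≤
    ∑ u, ∑ v, (A ^ l) u v * (A ^ (s + c)) u v * Real.log ((A ^ (l + 2 * s)) u v) := by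
  rw [← Finset.sum_add_distrib]
  refine Finset.sum_le_sum fun u _ => ?_
  have e1 : ∑ w, (A ^ (l + s)) u w * (A ^ c) u w *
      (Real.log ((A ^ (l + s)) u w) - Real.log ((A ^ c) u w)) =
      ∑ v, (A ^ l) u v * ∑ w, (A ^ s) v w * (A ^ c) u w *
        (Real.log ((A ^ (l + s)) u w) - Real.log ((A ^ c) u w)) := by
    simp only [Finset.mul_sum]
    rw [Finset.sum_comm]
    refine Finset.sum_congr rfl fun w _ => ?_
    rw [pow_add_apply l s u w]
    simp only [Finset.sum_mul]
    exact Finset.sum_congr rfl fun v _ => by ring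
  rw [e1, ← Finset.sum_add_distrib]
  refine Finset.sum_le_sum fun v _ => ?_
  rcases (h.pow_nonneg l u v).eq_or_lt with h0 | hl
  · rw [← h0]; simp
  rcases (h.pow_nonneg (s + c) u v).eq_or_lt with h0 | hC
  · rw [← h0]
    have hz : ∀ w, (A ^ s) v w * (A ^ c) u w = 0 := by
      intro w
      have h1 : ∑ w, (A ^ s) v w * (A ^ c) u w = 0 := by
        rw [h0, add_comm s c, pow_add_apply]
        exact Finset.sum_congr rfl fun w _ => by rw [h.pow_symm s w v, mul_comm]
      exact (Finset.sum_eq_zero_iff_of_nonneg fun w _ =>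
        mul_nonneg (h.pow_nonneg _ _ _) (h.pow_nonneg _ _ _)).1 h1 w (mem_univ w)
    simp [hz]
  -- the main case
  set q : U → ℝ := fun w => (A ^ s) v w * (A ^ c) u w with hq
  set r : U → ℝ := fun w => (A ^ (l + s)) u w / (A ^ c) u w with hr
  have hqs : ∑ w, q w = (A ^ (s + c)) u v := by
    rw [add_comm s c, pow_add_apply]
    exact Finset.sum_congr rfl fun w _ => by rw [hq, h.pow_symm s w v, mul_comm]
  have hq0 : ∀ w, 0 ≤ q w := fun w => mul_nonneg (h.pow_nonneg _ _ _) (h.pow_nonneg _ _ _)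
  have hpos : ∀ w, 0 < q w → 0 < (A ^ c) u w ∧ 0 < (A ^ (l + s)) u w := by
    intro w hw
    have h1 : 0 < (A ^ s) v w := by
      rcases (h.pow_nonneg s v w).eq_or_lt with h2 | h2
      · rw [hq] at hw; simp only [← h2, zero_mul, lt_irrefl] at hw
      · exact h2
    have h2 : 0 < (A ^ c) u w := by
      rcases (h.pow_nonneg c u w).eq_or_lt with h2 | h2
      · rw [hq] at hw; simp only [← h2, mul_zero, lt_irrefl] at hw
      · exact h2
    refine ⟨h2, ?_⟩
    rw [pow_add_apply]
    refine Finset.sum_pos' (fun x _ => mul_nonneg (h.pow_nonneg _ _ _) (h.pow_nonneg _ _ _))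
      ⟨v, mem_univ v, mul_pos hl h1⟩
  have hT : ∑ w, q w * r w ≤ (A ^ (l + 2 * s)) u v := by
    have e : l + 2 * s = (l + s) + s := by ring
    rw [e, pow_add_apply]
    refine Finset.sum_le_sum fun w _ => ?_
    rcases (h.pow_nonneg c u w).eq_or_lt with h2 | h2
    · simp only [hq, hr, ← h2, mul_zero, zero_mul]
      exact mul_nonneg (h.pow_nonneg _ _ _) (h.pow_nonneg _ _ _)
    · simp only [hq, hr]
      rw [h.pow_symm s v w]
      apply le_of_eq
      field_simp
  have hJ := log_jensen (univ : Finset U) q r hqs (fun w _ => hq0 w)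
    (fun w _ hw => div_pos (hpos w hw).2 (hpos w hw).1) hT hC
  have hT0 : 0 < (A ^ (l + 2 * s)) u v := by
    have h3 : 0 < (A ^ (2 * s)) v v := by
      rw [two_mul, pow_add_apply]
      have h4 : ∃ w, 0 < (A ^ s) v w := by
        by_contra hcon
        push Not at hcon
        have : ∑ w, (A ^ s) v w ≤ 0 := Finset.sum_nonpos fun w _ => hcon w
        rw [h.pow_row] at this
        exact absurd this (not_le.2 (pow_pos h.pos s))
      obtain ⟨w, hw⟩ := h4
      refine Finset.sum_pos' (fun x _ => mul_nonneg (h.pow_nonneg _ _ _) (h.pow_nonneg _ _ _))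
        ⟨w, mem_univ w, mul_pos hw (by rw [h.pow_symm]; exact hw)⟩
    rw [pow_add_apply]
    refine Finset.sum_pos' (fun x _ => mul_nonneg (h.pow_nonneg _ _ _) (h.pow_nonneg _ _ _))
      ⟨v, mem_univ v, mul_pos hl h3⟩
  rw [Real.log_div hT0.ne' hC.ne'] at hJ
  have e2 : ∑ w, (A ^ s) v w * (A ^ c) u w *
      (Real.log ((A ^ (l + s)) u w) - Real.log ((A ^ c) u w)) = ∑ w, q w * Real.log (r w) := by
    refine Finset.sum_congr rfl fun w _ => ?_
    rcases (hq0 w).eq_or_lt with h2 | h2
    · change q w * _ = q w * _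
      rw [← h2]; simp
    · change q w * _ = q w * _
      rw [hr, Real.log_div (hpos w h2).2.ne' (hpos w h2).1.ne']
  rw [e2]
  have h5 := mul_le_mul_of_nonneg_left hJ hl.le
  have e3 : (A ^ l) u v * ((A ^ (s + c)) u v *
      (Real.log ((A ^ (l + 2 * s)) u v) - Real.log ((A ^ (s + c)) u v))) =
      (A ^ l) u v * (A ^ (s + c)) u v * Real.log ((A ^ (l + 2 * s)) u v) -
      (A ^ l) u v * (A ^ (s + c)) u v * Real.log ((A ^ (s + c)) u v) := by ring
  rw [e3] at h5
  linarith

/-- ears not longer than the complementary arc -/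
theorem log_ear [Nonempty U] (l s m : ℕ) :
    (A ^ (l + (s + (l + s + 2 * m)))).trace *
      Real.log ((A ^ (l + (s + (l + s + 2 * m)))).trace / (Fintype.card U * d ^ (l + 2 * m))) ≤
    ∑ u, ∑ v, (A ^ l) u v * (A ^ (s + (l + s + 2 * m))) u v *
      Real.log ((A ^ (l + 2 * s)) u v) := by
  have hN : (0 : ℝ) < Fintype.card U := by exact_mod_cast Fintype.card_pos
  set t := (A ^ (l + (s + (l + s + 2 * m)))).trace with ht
  have ht0 : 0 < t := by
    have e : l + (s + (l + s + 2 * m)) = 2 * (l + s + m) := by ring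
    rw [ht, e]; exact h.trace_pos _
  have h1 := h.log_test l s (l + s + 2 * m)
  have h2 := h.log_short (l + s) m
  have h3 := h.log_long (s + (l + s + 2 * m)) l
  have e1 : l + s + (l + s + 2 * m) = l + (s + (l + s + 2 * m)) := by ring
  rw [e1, ← ht] at h2
  have e2 : s + (l + s + 2 * m) + l = l + (s + (l + s + 2 * m)) := by ring
  rw [e2, ← ht] at h3
  have e3 : ∑ u, ∑ v, (A ^ (s + (l + s + 2 * m))) u v * (A ^ l) u v *
      Real.log ((A ^ (s + (l + s + 2 * m))) u v) =
      ∑ u, ∑ v, (A ^ l) u v * (A ^ (s + (l + s + 2 * m))) u v *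
        Real.log ((A ^ (s + (l + s + 2 * m))) u v) :=
    Finset.sum_congr rfl fun u _ => Finset.sum_congr rfl fun v _ => by ring
  rw [e3] at h3
  have e4 : Real.log (t / (Fintype.card U * d ^ (l + 2 * m))) =
      Real.log (t / (Fintype.card U * d ^ l)) - ((2 * m : ℕ) : ℝ) * Real.log d := by
    rw [pow_add, ← mul_assoc, ← div_div, Real.log_div (by positivity [h.pos])
      (pow_ne_zero _ h.pos.ne'), Real.log_pow]
  rw [e4, mul_sub]
  linarith

end Reg

end Vale.Agent.P050.H257
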