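import Vale.Agent.P050.Lev.KSid

/-!
# P050, cycles with ears: definitions shared by the two-sided version
-/

namespace Vale.Agent.P050.Ears

open Finset Matrix Vale.Agent.P050.Lev

/-- `A` is a stochastic matrix on the states `S`, reversible with respect to the weights `μ`;
each state has a side, the weights of each side sum to one, steps change the side. -/
structure Rev {S : Type*} [Fintype S] (A : Matrix S S ℝ) (μ : S → ℝ) (c : S → Bool) : Prop where
  nonneg : ∀ u v, 0 ≤ A u v
  rev : ∀ u v, μ u * A u v = μ v * A v u
  row : ∀ u, ∑ v, A u v = 1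
  pos : ∀ u, 0 < μ u
  mass : ∀ b, ∑ u, (if c u = b then μ u else 0) = 1
  alt : ∀ u v, c u = c v → A u v = 0

/-- the kernel of `k` steps with respect to `μ` -/
noncomputable def kap {S : Type*} [Fintype S] [DecidableEq S] (A : Matrix S S ℝ) (μ : S → ℝ)
    (k : ℕ) (u v : S) : ℝ := (A ^ k) u v / μ v

/-- the weight of the closed walks of length `n` from the side `b` -/
noncomputable def tr {S : Type*} [Fintype S] [DecidableEq S] (A : Matrix S S ℝ) (c : S → Bool)
    (b : Bool) (n : ℕ) : ℝ := ∑ u, if c u = b then (A ^ n) u u else 0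

/-- the weight of the closed walk `x 0, …, x k, x 0` -/
noncomputable def cyc {S : Type*} (A : Matrix S S ℝ) {k : ℕ} (x : Fin (k + 1) → S) : ℝ :=
  ∏ i, A (x i) (x (i + 1))

open Classical in
/-- the weight of a map of the vertices of `H` to the states -/
noncomputable def wt {V S : Type} [Fintype V] (H : SimpleGraph V) (side : V → Bool)
    (A : Matrix S S ℝ) (μ : S → ℝ) (c : S → Bool) (z : V → S) : ℝ :=
  if ∀ v, c (z v) = side v then
    (∏ v, μ (z v)) * ∏ e ∈ sideEdges H side, A (z e.1) (z e.2) / μ (z e.2) else 0

/-- the graph `H` with a new path `a, z 0, …, z (k-1), b` of length `k + 1` (an ear) -/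
def addEar {V : Type} (H : SimpleGraph V) (a b : V) (k : ℕ) : SimpleGraph (V ⊕ Fin k) where
  Adj
    | .inl u, .inl v => H.Adj u v
    | .inl u, .inr i => (u = a ∧ i.val = 0) ∨ (u = b ∧ i.val + 1 = k)
    | .inr i, .inl u => (u = a ∧ i.val = 0) ∨ (u = b ∧ i.val + 1 = k)
    | .inr i, .inr j => i.val + 1 = j.val ∨ j.val + 1 = i.val
  symm := ⟨by
    rintro (u | i) (v | j) h
    · exact (show H.Adj u v from h).symm
    · exact h
    · exact h
    · exact h.symm⟩
  loopless := ⟨by
    rintro (u | i) h
    · exact H.loopless.irrefl u h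
    · change i.val + 1 = i.val ∨ i.val + 1 = i.val at h
      omega⟩

/-- the sides of the vertices of the ear, starting at a vertex with side `s` -/
def earSide {V : Type} (side : V → Bool) (s : Bool) (k : ℕ) : V ⊕ Fin k → Bool
  | .inl v => side v
  | .inr i => xor s (decide (i.val % 2 = 0))

/-- the graph `H` with a new vertex joined to `a` (a pendant edge) -/
def addPendant {V : Type} (H : SimpleGraph V) (a : V) : SimpleGraph (V ⊕ Unit) where
  Adj
    | .inl u, .inl v => H.Adj u v
    | .inl u, .inr _ => u = a
    | .inr _, .inl u => u = a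
    | .inr _, .inr _ => False
  symm := ⟨by
    rintro (u | i) (v | j) h
    · exact (show H.Adj u v from h).symm
    · exact h
    · exact h
    · exact h⟩
  loopless := ⟨by
    rintro (u | i) h
    · exact H.loopless.irrefl u h
    · exact h⟩

/-- the sides after adding a pendant edge -/
def pendantSide {V : Type} (side : V → Bool) (s : Bool) : V ⊕ Unit → Bool
  | .inl v => side v
  | .inr _ => !s

end Vale.Agent.P050.Ears
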