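import Vale.Agent.P050.R3.H257.FoldStep
import Vale.Agent.P050.R3.H149.Cycle

/-!
# P050, cycles with ears: the class of graphs
-/

namespace Vale.Agent.P050.Ears

open Finset Matrix Vale.Agent.P050.Lev

open Vale.Agent.P050.H257 (PW PW_sum exp_jensen Between)

/-- The class, for the cycle length `k + 1`: graphs with a set of records. -/
inductive EarGraph (k : ℕ) : (V : Type) → SimpleGraph V → Set (Rec k V) → Prop
  /-- the cycle with `k + 1` vertices -/
  | cycle : EarGraph k (Fin (k + 1)) (SimpleGraph.cycleGraph (k + 1)) {(Set.univ, id)}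
  /-- the positions of a record may be shifted -/
  | rotate {V : Type} {H : SimpleGraph V} {𝒞 : Set (Rec k V)} {R : Rec k V} (r : Fin (k + 1)) :
    EarGraph k V H 𝒞 → R ∈ 𝒞 →
      EarGraph k V H (insert ({i | i + r ∈ R.1}, fun i => R.2 (i + r)) 𝒞)
  /-- the positions of a record may be reflected -/
  | reflect {V : Type} {H : SimpleGraph V} {𝒞 : Set (Rec k V)} {R : Rec k V} :
    EarGraph k V H 𝒞 → R ∈ 𝒞 →
      EarGraph k V H (insert ({i | -i ∈ R.1}, fun i => R.2 (-i)) 𝒞)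
  /-- an ear of length `m + 1` between the positions `p` and `q` of a record -/
  | ear {V : Type} {H : SimpleGraph V} {𝒞 : Set (Rec k V)} {R : Rec k V} (p q : Fin (k + 1))
    (m : ℕ) : EarGraph k V H 𝒞 → R ∈ 𝒞 → p ∈ R.1 → q ∈ R.1 → 1 ≤ m →
      (m = 1 → R.2 p ≠ R.2 q) → Between (k + 1) ((q - p : Fin (k + 1)) : ℕ) (m + 1) →
      EarGraph k (V ⊕ Fin m) (addEar H (R.2 p) (R.2 q) m)
        {R | ∃ R' ∈ 𝒞, R = (R'.1, Sum.inl ∘ R'.2)}
  /-- an ear of length `m + 1` between the positions `0` and `m + 1` of a record: its vertices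
  are recorded -/
  | arc {V : Type} {H : SimpleGraph V} {𝒞 : Set (Rec k V)} {R : Rec k V} (m : ℕ)
    (hm : m + 1 < k + 1) : EarGraph k V H 𝒞 → R ∈ 𝒞 → 0 ∈ R.1 → ⟨m + 1, hm⟩ ∈ R.1 → 1 ≤ m →
      (m = 1 → R.2 0 ≠ R.2 ⟨m + 1, hm⟩) →
      EarGraph k (V ⊕ Fin m) (addEar H (R.2 0) (R.2 ⟨m + 1, hm⟩) m)
        ({R | ∃ R' ∈ 𝒞, R = (R'.1, Sum.inl ∘ R'.2)} ∪ {R₁ | ∃ R' ∈ 𝒞, 0 ∈ R'.1 ∧
          ⟨m + 1, hm⟩ ∈ R'.1 ∧ R'.2 0 = R.2 0 ∧ R'.2 ⟨m + 1, hm⟩ = R.2 ⟨m + 1, hm⟩ ∧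
            R₁ = arcRec R' m})
  /-- an ear of length `l + 2 * s` between the positions `0` and `l` of a record, which is not
  longer than the complementary arc: its first `l + s` steps are recorded with position `0`, its
  last `s` steps are recorded, in the reverse order, behind the arc from `0` to `l` -/
  | fold {V : Type} {H : SimpleGraph V} {𝒞 : Set (Rec k V)} {R : Rec k V} (l s : ℕ)
    (hl : 1 ≤ l) (hs : 1 ≤ s) (hc : 2 * (l + s) ≤ k + 1) : EarGraph k V H 𝒞 → R ∈ 𝒞 →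
      0 ∈ R.1 → ⟨l, by omega⟩ ∈ R.1 →
      EarGraph k (V ⊕ Fin (l + 2 * s - 1)) (addEar H (R.2 0) (R.2 ⟨l, by omega⟩) (l + 2 * s - 1))
        ({R | ∃ R' ∈ 𝒞, R = (R'.1, Sum.inl ∘ R'.2)} ∪
          ({longRec R l s (l + 2 * s - 1) (by omega)} ∪
          {R₁ | ∃ R' ∈ 𝒞, 0 ∈ R'.1 ∧ ⟨l, by omega⟩ ∈ R'.1 ∧ R'.2 0 = R.2 0 ∧
            R'.2 ⟨l, by omega⟩ = R.2 ⟨l, by omega⟩ ∧
              R₁ = shortRec R' l s (l + 2 * s - 1) (by omega)}))
  /-- an even cycle of length `m + 1` through a vertex -/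
  | loop {V : Type} {H : SimpleGraph V} {𝒞 : Set (Rec k V)} (v : V) (m : ℕ) :
    EarGraph k V H 𝒞 → 3 ≤ m → m % 2 = 1 → EarGraph k (V ⊕ Fin m) (addEar H v v m)
        {R | ∃ R' ∈ 𝒞, R = (R'.1, Sum.inl ∘ R'.2)}
  /-- a pendant edge at a vertex -/
  | pendant {V : Type} {H : SimpleGraph V} {𝒞 : Set (Rec k V)} (v : V) :
    EarGraph k V H 𝒞 → EarGraph k (V ⊕ Unit) (addPendant H v)
        {R | ∃ R' ∈ 𝒞, R = (R'.1, Sum.inl ∘ R'.2)}
  /-- isomorphic graphs -/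
  | iso {V V' : Type} {H : SimpleGraph V} {H' : SimpleGraph V'} {𝒞 : Set (Rec k V)}
    (e : H ≃g H') : EarGraph k V H 𝒞 → EarGraph k V' H' {R | ∃ R' ∈ 𝒞, R = (R'.1, e ∘ R'.2)}

/-- what is proved by induction -/
structure Good (k : ℕ) (V : Type) [Fintype V] [DecidableEq V] (H : SimpleGraph V)
    (side : V → Bool) (𝒞 : Set (Rec k V)) : Prop where
  proper : ∀ u v, H.Adj u v → side u ≠ side v
  noiso : ∀ v, ∃ w, H.Adj v w
  alt : ∀ R ∈ 𝒞, ∃ b, ∀ i ∈ R.1, side (R.2 i) = sd b i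
  law : ∀ (S : Type) [Fintype S] [DecidableEq S] (A : Matrix S S ℝ) (μ : S → ℝ) (c : S → Bool),
    Rev A μ c → ∃ π G, Law k H side 𝒞 A μ c π G

variable {k : ℕ} {V : Type} [Fintype V] [DecidableEq V] {H : SimpleGraph V} {side : V → Bool}
  {𝒞 : Set (Rec k V)}

theorem Good.one_le (hk : (k + 1) % 2 = 0) (g : Good k V H side 𝒞)
    (S : Type) [Fintype S] [DecidableEq S] (A : Matrix S S ℝ) (μ : S → ℝ) (c : S → Bool)
    (h : Rev A μ c) : 1 ≤ ∑ z, wt H side A μ c z := by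
  obtain ⟨π, G, L⟩ := g.law S A μ c h
  exact L.one_le h hk

theorem Good.gsid (hk : (k + 1) % 2 = 0) (g : Good k V H side 𝒞) : GSid H side := by
  refine ⟨g.proper, ?_⟩
  refine H149.ksid_of_bireg ?_ ?_ (bireg_of_rev H side fun S _ _ _ A μ c h =>
    g.one_le hk S A μ c h)
  · intro e he
    simp only [sideEdges, mem_filter] at he
    exact he.2.2
  · intro v
    obtain ⟨w, hw⟩ := g.noiso v
    have h1 := g.proper v w hw
    cases hv : side v
    · rw [hv] at h1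
      exact ⟨(v, w), by
        simp only [sideEdges, mem_filter, mem_univ, true_and]
        exact ⟨hw, hv, by cases h2 : side w <;> simp_all⟩, Or.inl rfl⟩
    · rw [hv] at h1
      exact ⟨(w, v), by
        simp only [sideEdges, mem_filter, mem_univ, true_and]
        exact ⟨hw.symm, by cases h2 : side w <;> simp_all, hv⟩, Or.inr rfl⟩

theorem side_parity (hk : (k + 1) % 2 = 0) {b : Bool} {p q : Fin (k + 1)} {m : ℕ}
    (h : (m + 1) % 2 = ((q - p : Fin (k + 1)) : ℕ) % 2) :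
    sd b q = xor (sd b p) (decide (m % 2 = 0)) := by
  have h1 : sd b ((q - p : Fin (k + 1)) : ℕ) = sd (sd b p) q := sd_sub hk b q p
  have h2 : sd b q = sd (sd b p) ((q - p : Fin (k + 1)) : ℕ) := by
    rw [sd_sub hk, sd_sd]
  rw [h2, ← sd_congr (b := sd b p) h]
  unfold sd
  rcases Nat.mod_two_eq_zero_or_one m with h3 | h3 <;> simp [h3, Nat.add_mod]

theorem good_cycle (hk : (k + 1) % 2 = 0) (hk3 : 3 ≤ k) :
    Good k (Fin (k + 1)) (SimpleGraph.cycleGraph (k + 1)) (cycSide false k)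
      {(Set.univ, id)} := by
  refine ⟨cycSide_proper false (by omega) hk, cycle_noIso (by omega), ?_, ?_⟩
  · rintro _ rfl
    exact ⟨false, fun i _ => rfl⟩
  · intro S _ _ A μ c h
    refine ⟨fun x => cycb A c false x, fun _ => 1, fun z => cycb_nonneg h false z,
      fun _ _ => one_pos, fun z => ?_, ?_, ?_, ?_⟩
    · rw [mul_one, wt_cycle h false (by omega) hk]
      rfl
    · rintro _ rfl b hb F _
      have hb2 : false = b := (sd_inj 0).1 (hb 0 (Set.mem_univ _))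
      subst hb2
      rfl
    · rw [cycb_sum, ← h.tr_not false (k + 1) (by omega)]
      rfl
    · simp

theorem good_attach (g : Good k V H side 𝒞) (a b : V) (m : ℕ) (hm : 1 ≤ m)
    (hab : m = 1 → a ≠ b) (hs : side b = xor (side a) (decide (m % 2 = 0)))
    (hL : ∀ (S : Type) [Fintype S] [DecidableEq S] (A : Matrix S S ℝ) (μ : S → ℝ)
      (c : S → Bool) (π G : (V → S) → ℝ), Rev A μ c → Law k H side 𝒞 A μ c π G →
      (∀ z, 0 < π z → 0 < kap A μ (m + 1) (z a) (z b)) ∧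
      0 ≤ ∑ z, π z * Real.log (kap A μ (m + 1) (z a) (z b)))
    (𝒟 : Set (Rec k (V ⊕ Fin m)))
    (halt : ∀ R ∈ 𝒟, ∃ s, ∀ i ∈ R.1, earSide side (side a) m (R.2 i) = sd s i)
    (hD : ∀ (S : Type) [Fintype S] [DecidableEq S] (A : Matrix S S ℝ) (μ : S → ℝ)
      (c : S → Bool) (π G : (V → S) → ℝ), Rev A μ c → Law k H side 𝒞 A μ c π G →
      ∀ R ∈ 𝒟, (∃ R' ∈ 𝒞, R = (R'.1, Sum.inl ∘ R'.2)) ∨
      ∀ s : Bool, (∀ i ∈ R.1, earSide side (side a) m (R.2 i) = sd s i) →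
        ∀ F : (Fin (k + 1) → S) → ℝ, DependsOn F R.1 →
          ∑ z, attLaw A π a b m z * F (fun i => z (R.2 i)) = ∑ x, cycb A c s x * F x) :
    Good k (V ⊕ Fin m) (addEar H a b m) (earSide side (side a) m) 𝒟 := by
  refine ⟨earSide_proper H side a b m g.proper hs, addEar_noIso g.noiso a b m, halt, ?_⟩
  intro S _ _ A μ c h
  obtain ⟨π, G, L⟩ := g.law S A μ c h
  obtain ⟨h1, h2⟩ := hL S A μ c π G h L
  exact ⟨_, _, L.attach h g.proper a b m hm hab hs h1 h2 𝒟 (hD S A μ c π G h L)⟩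

theorem good_ear (hk : (k + 1) % 2 = 0) (g : Good k V H side 𝒞) {R : Rec k V}
    (p q : Fin (k + 1)) (m : ℕ) (hR : R ∈ 𝒞) (hp : p ∈ R.1) (hq : q ∈ R.1) (hm : 1 ≤ m)
    (hab : m = 1 → R.2 p ≠ R.2 q)
    (hj : Between (k + 1) ((q - p : Fin (k + 1)) : ℕ) (m + 1)) :
    Good k (V ⊕ Fin m) (addEar H (R.2 p) (R.2 q) m) (earSide side (side (R.2 p)) m)
      {R | ∃ R' ∈ 𝒞, R = (R'.1, Sum.inl ∘ R'.2)} := by
  obtain ⟨b, hb⟩ := g.alt R hR
  refine good_attach g (R.2 p) (R.2 q) m hm hab ?_ ?_ _ ?_ ?_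
  · rw [hb p hp, hb q hq]
    exact side_parity hk hj.1
  · intro S _ _ A μ c π G h L
    exact ⟨L.kap_pos h hk hR hp hq hb _ hj, L.log_nonneg h hk hR hp hq hb _ hj⟩
  · rintro _ ⟨R', hR', rfl⟩
    exact g.alt R' hR'
  · intro S _ _ A μ c π G h L R₁ hR₁
    exact Or.inl hR₁

theorem good_loop (g : Good k V H side 𝒞) (v : V) (m : ℕ) (hm : 3 ≤ m) (hm2 : m % 2 = 1) :
    Good k (V ⊕ Fin m) (addEar H v v m) (earSide side (side v) m)
      {R | ∃ R' ∈ 𝒞, R = (R'.1, Sum.inl ∘ R'.2)} := by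
  refine good_attach g v v m (by omega) (by omega) ?_ ?_ _ ?_ ?_
  · simp [hm2]
  · intro S _ _ A μ c π G h L
    obtain ⟨r, hr⟩ : ∃ r, m + 1 = 2 * r := ⟨(m + 1) / 2, by omega⟩
    rw [hr]
    refine ⟨fun z _ => lt_of_lt_of_le one_pos (h.kap_ge r _), ?_⟩
    exact Finset.sum_nonneg fun z _ => mul_nonneg (L.nonneg z)
      (Real.log_nonneg (h.kap_ge r _))
  · rintro _ ⟨R', hR', rfl⟩
    exact g.alt R' hR'
  · intro S _ _ A μ c π G h L R₁ hR₁
    exact Or.inl hR₁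

theorem good_arc (hk : (k + 1) % 2 = 0) (g : Good k V H side 𝒞) {R : Rec k V}
    (m : ℕ) (hm : m + 1 < k + 1) (hR : R ∈ 𝒞) (h0 : 0 ∈ R.1) (h1 : ⟨m + 1, hm⟩ ∈ R.1)
    (hm1 : 1 ≤ m) (hab : m = 1 → R.2 0 ≠ R.2 ⟨m + 1, hm⟩) :
    Good k (V ⊕ Fin m) (addEar H (R.2 0) (R.2 ⟨m + 1, hm⟩) m)
      (earSide side (side (R.2 0)) m)
      ({R | ∃ R' ∈ 𝒞, R = (R'.1, Sum.inl ∘ R'.2)} ∪ {R₁ | ∃ R' ∈ 𝒞, 0 ∈ R'.1 ∧
          ⟨m + 1, hm⟩ ∈ R'.1 ∧ R'.2 0 = R.2 0 ∧ R'.2 ⟨m + 1, hm⟩ = R.2 ⟨m + 1, hm⟩ ∧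
            R₁ = arcRec R' m}) := by
  obtain ⟨b, hb⟩ := g.alt R hR
  have hj : Between (k + 1) (((⟨m + 1, hm⟩ : Fin (k + 1)) - 0 : Fin (k + 1)) : ℕ) (m + 1) := by
    rw [sub_zero]
    exact ⟨rfl, min_le_left _ _, le_max_left _ _⟩
  have harc : ∀ R' : Rec k V, R' ∈ 𝒞 → 0 ∈ R'.1 → R'.2 0 = R.2 0 →
      ∀ b', (∀ i ∈ R'.1, side (R'.2 i) = sd b' i) →
      ∀ i ∈ (arcRec R' m).1, earSide side (side (R.2 0)) m ((arcRec R' m).2 i) = sd b' i := by
    intro R' hR' h0' he b' hb' i hi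
    have hb0 : side (R.2 0) = b' := by
      rw [← he, hb' 0 h0']
      simp [sd]
    simp only [arcRec]
    by_cases h6 : 1 ≤ i.val ∧ i.val ≤ m
    · rw [dif_pos h6]
      simp only [earSide, hb0, sd]
      congr 1
      have h7 : (i.val - 1) % 2 = 0 ↔ i.val % 2 = 1 := by omega
      simp only [h7]
    · rw [dif_neg h6]
      rcases hi with hi | hi
      · exact hb' i hi
      · exact absurd hi h6
  refine good_attach g (R.2 0) (R.2 ⟨m + 1, hm⟩) m hm1 hab ?_ ?_ _ ?_ ?_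
  · rw [hb 0 h0, hb _ h1]
    exact side_parity hk hj.1
  · intro S _ _ A μ c π G h L
    exact ⟨L.kap_pos h hk hR h0 h1 hb _ hj, L.log_nonneg h hk hR h0 h1 hb _ hj⟩
  · rintro R₁ (⟨R', hR', rfl⟩ | ⟨R', hR', h0', -, he, -, rfl⟩)
    · exact g.alt R' hR'
    · obtain ⟨b', hb'⟩ := g.alt R' hR'
      exact ⟨b', harc R' hR' h0' he b' hb'⟩
  · intro S _ _ A μ c π G h L R₁ hR₁
    rcases hR₁ with hR₁ | ⟨R', hR', h0', h1', he, he1, rfl⟩
    · exact Or.inl hR₁
    · right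
      intro s hs F hF
      obtain ⟨b', hb'⟩ := g.alt R' hR'
      have hsb : s = b' := by
        have h8 := harc R' hR' h0' he b' hb' 0 (Or.inl h0')
        have h9 := hs 0 (Or.inl h0')
        rw [h8] at h9
        simpa [sd] using h9.symm
      subst hsb
      have h10 := arc_marg h L hR' hb' m hm h0' h1' F hF
      rw [he, he1] at h10
      exact h10

theorem good_attach' (g : Good k V H side 𝒞) (a b : V) (m : ℕ) (hm : 1 ≤ m)
    (hab : m = 1 → a ≠ b) (hs : side b = xor (side a) (decide (m % 2 = 0)))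
    (𝒟 : Set (Rec k (V ⊕ Fin m)))
    (halt : ∀ R ∈ 𝒟, ∃ s, ∀ i ∈ R.1, earSide side (side a) m (R.2 i) = sd s i)
    (hL : ∀ (S : Type) [Fintype S] [DecidableEq S] (A : Matrix S S ℝ) (μ : S → ℝ)
      (c : S → Bool) (π G : (V → S) → ℝ), Rev A μ c → Law k H side 𝒞 A μ c π G →
      ∃ ρ g : S → (Fin m → S) → S → ℝ, (∀ u e v, 0 ≤ ρ u e v) ∧
      (∀ u e v, 0 < ρ u e v → 0 < g u e v) ∧
      (∀ u e v, ρ u e v * g u e v ≤ PW A m u e v / μ v) ∧
      (∀ z, 0 < π z → ∑ e, ρ (z a) e (z b) = 1) ∧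
      (0 ≤ ∑ z, π z * ∑ e, ρ (z a) e (z b) * Real.log (g (z a) e (z b))) ∧
      ∀ R ∈ 𝒟, (∃ R' ∈ 𝒞, R = (R'.1, Sum.inl ∘ R'.2)) ∨
      ∀ s : Bool, (∀ i ∈ R.1, earSide side (side a) m (R.2 i) = sd s i) →
        ∀ F : (Fin (k + 1) → S) → ℝ, DependsOn F R.1 →
          ∑ z, attLaw' π a b ρ z * F (fun i => z (R.2 i)) = ∑ x, cycb A c s x * F x) :
    Good k (V ⊕ Fin m) (addEar H a b m) (earSide side (side a) m) 𝒟 := by
  refine ⟨earSide_proper H side a b m g.proper hs, addEar_noIso g.noiso a b m, halt, ?_⟩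
  intro S _ _ A μ c h
  obtain ⟨π, G, L⟩ := g.law S A μ c h
  obtain ⟨ρ, g', h1, h2, h3, h4, h5, h6⟩ := hL S A μ c π G h L
  exact ⟨_, _, L.attach' h g.proper a b m hm hab hs ρ g' h1 h2 h3 h4 h5 𝒟 h6⟩

theorem good_fold (hk : (k + 1) % 2 = 0) (g : Good k V H side 𝒞) {R : Rec k V}
    (l s K : ℕ) (hK : K + 1 = l + 2 * s) (hl : 1 ≤ l) (hs : 1 ≤ s) (hc : 2 * (l + s) ≤ k + 1)
    (hR : R ∈ 𝒞) (h0 : 0 ∈ R.1) (h1 : ⟨l, by omega⟩ ∈ R.1) :
    Good k (V ⊕ Fin K) (addEar H (R.2 0) (R.2 ⟨l, by omega⟩) K)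
      (earSide side (side (R.2 0)) K)
      ({R | ∃ R' ∈ 𝒞, R = (R'.1, Sum.inl ∘ R'.2)} ∪
          ({longRec R l s K (by omega)} ∪
          {R₁ | ∃ R' ∈ 𝒞, 0 ∈ R'.1 ∧ ⟨l, by omega⟩ ∈ R'.1 ∧ R'.2 0 = R.2 0 ∧
            R'.2 ⟨l, by omega⟩ = R.2 ⟨l, by omega⟩ ∧ R₁ = shortRec R' l s K (by omega)})) := by
  obtain ⟨b, hb⟩ := g.alt R hR
  have hlong : ∀ R' : Rec k V, R' ∈ 𝒞 → 0 ∈ R'.1 → R'.2 0 = R.2 0 →
      ∀ b', (∀ i ∈ R'.1, side (R'.2 i) = sd b' i) →
      ∀ i ∈ (longRec R' l s K (by omega)).1,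
        earSide side (side (R.2 0)) K ((longRec R' l s K (by omega)).2 i) = sd b' i := by
    intro R' hR' h0' he b' hb' i hi
    have hb0 : side (R.2 0) = b' := by
      rw [← he, hb' 0 h0']
      simp [sd]
    simp only [longRec]
    by_cases h6 : 1 ≤ i.val ∧ i.val ≤ l + s
    · rw [dif_pos h6]
      simp only [earSide, hb0, sd]
      congr 1
      have h7 : (i.val - 1) % 2 = 0 ↔ i.val % 2 = 1 := by omega
      simp only [h7]
    · rw [dif_neg h6]
      have h7 : i = 0 := Fin.ext (by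
        have h8 : i.val ≤ l + s := hi
        show i.val = 0
        omega)
      rw [h7]
      exact hb' 0 h0'
  have hshort : ∀ R' : Rec k V, R' ∈ 𝒞 → 0 ∈ R'.1 → R'.2 0 = R.2 0 →
      ∀ b', (∀ i ∈ R'.1, side (R'.2 i) = sd b' i) →
      ∀ i ∈ (shortRec R' l s K (by omega)).1,
        earSide side (side (R.2 0)) K ((shortRec R' l s K (by omega)).2 i) = sd b' i := by
    intro R' hR' h0' he b' hb' i hi
    have hb0 : side (R.2 0) = b' := by
      rw [← he, hb' 0 h0']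
      simp [sd]
    simp only [shortRec]
    by_cases h6 : l + 1 ≤ i.val ∧ i.val ≤ l + s
    · rw [dif_pos h6]
      simp only [earSide, hb0, sd]
      congr 1
      have h7 : (K - (i.val - l)) % 2 = 0 ↔ i.val % 2 = 1 := by omega
      simp only [h7]
    · rw [dif_neg h6]
      rcases hi with hi | hi
      · exact hb' i hi.2
      · exact absurd hi h6
  refine good_attach' g (R.2 0) (R.2 ⟨l, by omega⟩) K (by omega) (by omega) ?_ _ ?_ ?_
  · rw [hb 0 h0, hb _ h1]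
    apply side_parity hk
    rw [sub_zero]
    show (K + 1) % 2 = l % 2
    omega
  · rintro R₁ (⟨R', hR', rfl⟩ | rfl | ⟨R', hR', h0', -, he, -, rfl⟩)
    · exact g.alt R' hR'
    · exact ⟨b, hlong R hR h0 rfl b hb⟩
    · obtain ⟨b', hb'⟩ := g.alt R' hR'
      exact ⟨b', hshort R' hR' h0' he b' hb'⟩
  · intro S _ _ A μ c π G h L
    have e : (((⟨l, by omega⟩ : Fin (k + 1)) - 0 : Fin (k + 1)) : ℕ) = l := by rw [sub_zero]
    refine ⟨fρ A μ k l s (by omega), fg A μ k l s (by omega), ?_, ?_, ?_, ?_, ?_, ?_⟩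
    · intro u e v
      exact mul_nonneg (div_nonneg (PW_nonneg h.nonneg _ _ _ _) (h.pos _).le)
        (foldTh_nonneg h _ _ _ _ _ _)
    · intro u e v huv
      have h2 : 0 < foldTh A μ l s (k + 1 - l - s) u (e ⟨l + s - 1, by omega⟩) v := by
        rcases (foldTh_nonneg h l s (k + 1 - l - s) u (e ⟨l + s - 1, by omega⟩) v).eq_or_lt
          with h3 | h3
        · simp only [fρ, foldLaw] at huv
          rw [← h3, mul_zero] at huv
          exact absurd huv (lt_irrefl _)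
        · exact h3
      exact inv_pos.2 h2
    · intro u e v
      simp only [fρ, fg, foldLaw]
      rcases (foldTh_nonneg h l s (k + 1 - l - s) u (e ⟨l + s - 1, by omega⟩) v).eq_or_lt
        with h3 | h3
      · rw [← h3, mul_zero, zero_mul]
        exact div_nonneg (PW_nonneg h.nonneg _ _ _ _) (h.pos _).le
      · rw [mul_assoc, mul_inv_cancel₀ h3.ne', mul_one]
    · intro z hz
      have p1 := L.kap_pos h hk hR h0 h1 hb l (by
        rw [e]; exact ⟨rfl, min_le_left _ _, le_max_left _ _⟩) z hz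
      have p2 := L.kap_pos h hk hR h0 h1 hb (k + 1 - l) (by
        rw [e]; exact ⟨by omega, min_le_right _ _, le_max_right _ _⟩) z hz
      refine fold_sum h hl hs hK _ _ ?_ ?_
      · rcases (h.pow_nonneg l (z (R.2 0)) (z (R.2 ⟨l, by omega⟩))).eq_or_lt with h2 | h2
        · unfold kap at p1
          rw [← h2, zero_div] at p1
          exact absurd p1 (lt_irrefl _)
        · exact h2
      · rw [show s + (k + 1 - l - s) = k + 1 - l by omega]
        exact p2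
    · have h2 := fold_log' h hk b hl hs hK hc
      have h3 := L.marg R hR b hb (fun x => ∑ e : Fin K → S,
        fρ A μ k l s (by omega) (x 0) e (x ⟨l, by omega⟩) *
        Real.log (fg A μ k l s (by omega) (x 0) e (x ⟨l, by omega⟩))) (by
          intro x y hxy
          simp only [hxy _ h0, hxy _ h1])
      rw [← h3] at h2
      exact h2
    · intro R₁ hR₁
      rcases hR₁ with hR₁ | rfl | ⟨R', hR', h0', h1', he, he1, rfl⟩
      · exact Or.inl hR₁
      · right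
        intro t ht F hF
        have htb : t = b := by
          have h8 := hlong R hR h0 rfl b hb 0 (by show ((0 : Fin (k + 1)) : ℕ) ≤ l + s; simp)
          have h9 := ht 0 (by show ((0 : Fin (k + 1)) : ℕ) ≤ l + s; simp)
          rw [h8] at h9
          simpa [sd] using h9.symm
        subst htb
        exact long_marg h L hR hb hl hs hK hc h0 h1 F hF
      · right
        intro t ht F hF
        obtain ⟨b', hb'⟩ := g.alt R' hR'
        have h00 : (0 : Fin (k + 1)) ∈ (shortRec R' l s K (by omega)).1 :=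
          Or.inl ⟨by show ((0 : Fin (k + 1)) : ℕ) ≤ l; simp, h0'⟩
        have htb : t = b' := by
          have h8 := hshort R' hR' h0' he b' hb' 0 h00
          have h9 := ht 0 h00
          rw [h8] at h9
          simpa [sd] using h9.symm
        subst htb
        have h10 := short_marg h L hR' hb' hl hs hK hc h0' h1' F hF
        rw [he, he1] at h10
        exact h10

theorem good_pendant (g : Good k V H side 𝒞) (v : V) :
    Good k (V ⊕ Unit) (addPendant H v) (pendantSide side (side v))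
      {R | ∃ R' ∈ 𝒞, R = (R'.1, Sum.inl ∘ R'.2)} := by
  refine ⟨pendantSide_proper H side v g.proper, addPendant_noIso g.noiso v, ?_, ?_⟩
  · rintro _ ⟨R', hR', rfl⟩
    exact g.alt R' hR'
  · intro S _ _ A μ c h
    obtain ⟨π, G, L⟩ := g.law S A μ c h
    exact ⟨_, _, L.pendant h g.proper v⟩

theorem good_rotate (hk : (k + 1) % 2 = 0) (g : Good k V H side 𝒞) {R : Rec k V}
    (hR : R ∈ 𝒞) (r : Fin (k + 1)) :
    Good k V H side (insert ({i | i + r ∈ R.1}, fun i => R.2 (i + r)) 𝒞) := by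
  refine ⟨g.proper, g.noiso, ?_, ?_⟩
  · rintro R' (rfl | hR')
    · obtain ⟨b, hb⟩ := g.alt R hR
      exact ⟨sd b r, fun i hi => by
        have h1 := hb _ hi
        rw [sd_add hk] at h1
        exact h1⟩
    · exact g.alt R' hR'
  · intro S _ _ A μ c h
    obtain ⟨π, G, L⟩ := g.law S A μ c h
    exact ⟨_, _, L.rotate h hk hR r⟩

theorem good_reflect (hk : (k + 1) % 2 = 0) (g : Good k V H side 𝒞) {R : Rec k V}
    (hR : R ∈ 𝒞) :
    Good k V H side (insert ({i | -i ∈ R.1}, fun i => R.2 (-i)) 𝒞) := by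
  refine ⟨g.proper, g.noiso, ?_, ?_⟩
  · rintro R' (rfl | hR')
    · obtain ⟨b, hb⟩ := g.alt R hR
      exact ⟨b, fun i hi => by
        have h1 := hb _ hi
        rw [sd_neg hk] at h1
        exact h1⟩
    · exact g.alt R' hR'
  · intro S _ _ A μ c h
    obtain ⟨π, G, L⟩ := g.law S A μ c h
    exact ⟨_, _, L.reflect h hk hR⟩

theorem good_iso {V' : Type} [Fintype V'] [DecidableEq V'] {H' : SimpleGraph V'} (e : H ≃g H')
    (g : Good k V H side 𝒞) :
    Good k V' H' (side ∘ e.symm) {R | ∃ R' ∈ 𝒞, R = (R'.1, e ∘ R'.2)} := by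
  refine ⟨?_, iso_noIso e g.noiso, ?_, ?_⟩
  · intro u v huv
    exact g.proper _ _ (e.symm.map_rel_iff.2 huv)
  · rintro _ ⟨R', hR', rfl⟩
    obtain ⟨b, hb⟩ := g.alt R' hR'
    exact ⟨b, fun i hi => by simpa using hb i hi⟩
  · intro S _ _ A μ c h
    obtain ⟨π, G, L⟩ := g.law S A μ c h
    exact ⟨_, _, L.iso e⟩

theorem EarGraph.good {k : ℕ} (hk : (k + 1) % 2 = 0) (hk3 : 3 ≤ k) {V : Type}
    {H : SimpleGraph V} {𝒞 : Set (Rec k V)} (h : EarGraph k V H 𝒞) :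
    ∃ (i1 : Fintype V) (i2 : DecidableEq V) (side : V → Bool), Good k V H side 𝒞 := by
  induction h with
  | cycle => exact ⟨inferInstance, inferInstance, _, good_cycle hk hk3⟩
  | rotate r _ hR ih =>
    obtain ⟨i1, i2, side, g⟩ := ih
    exact ⟨i1, i2, side, good_rotate hk g hR r⟩
  | reflect _ hR ih =>
    obtain ⟨i1, i2, side, g⟩ := ih
    exact ⟨i1, i2, side, good_reflect hk g hR⟩
  | ear p q m _ hR hp hq hm hab hj ih =>
    obtain ⟨i1, i2, side, g⟩ := ih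
    exact ⟨inferInstance, inferInstance, _, good_ear hk g p q m hR hp hq hm hab hj⟩
  | arc m hm _ hR h0 h1 hm1 hab ih =>
    obtain ⟨i1, i2, side, g⟩ := ih
    exact ⟨inferInstance, inferInstance, _, good_arc hk g m hm hR h0 h1 hm1 hab⟩
  | fold l s hl hs hc _ hR h0 h1 ih =>
    obtain ⟨i1, i2, side, g⟩ := ih
    exact ⟨inferInstance, inferInstance, _,
      good_fold hk g l s (l + 2 * s - 1) (by omega) hl hs hc hR h0 h1⟩
  | loop v m _ hm hm2 ih =>
    obtain ⟨i1, i2, side, g⟩ := ih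
    exact ⟨inferInstance, inferInstance, _, good_loop g v m hm hm2⟩
  | pendant v _ ih =>
    obtain ⟨i1, i2, side, g⟩ := ih
    exact ⟨inferInstance, inferInstance, _, good_pendant g v⟩
  | iso e _ ih =>
    obtain ⟨i1, i2, side, g⟩ := ih
    let _ : Fintype _ := Fintype.ofEquiv _ e.toEquiv
    let _ : DecidableEq _ := e.symm.toEquiv.decidableEq
    exact ⟨inferInstance, inferInstance, _, good_iso e g⟩

end Vale.Agent.P050.Ears
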