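import Vale.Agent.P050.R3.H257.Cls
import Vale.Agent.P050.R3.H987.Sid

/-!
# P050, cycles with ears: the final theorem
-/

namespace Vale.Agent.P050.Ears

open Finset Vale.Agent.P050.Lev

theorem EarGraph.gsid {k : ℕ} (hk : (k + 1) % 2 = 0) (hk3 : 3 ≤ k) {V : Type} [i1 : Fintype V]
    [i2 : DecidableEq V] {H : SimpleGraph V} {𝒞 : Set (Rec k V)} (h : EarGraph k V H 𝒞) :
    ∃ side : V → Bool, GSid H side := by
  obtain ⟨j1, j2, side, g⟩ := h.good hk hk3
  obtain rfl : j1 = i1 := Subsingleton.elim _ _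
  obtain rfl : j2 = i2 := Subsingleton.elim _ _
  exact ⟨side, g.gsid hk⟩

theorem EarGraph.finite {k : ℕ} {V : Type} {H : SimpleGraph V} {𝒞 : Set (Rec k V)}
    (h : EarGraph k V H 𝒞) : Finite V := by
  induction h with
  | cycle => infer_instance
  | rotate _ _ _ ih => exact ih
  | reflect _ _ ih => exact ih
  | ear _ _ _ _ _ _ _ _ _ _ ih => exact Finite.instSum
  | arc _ _ _ _ _ _ _ _ ih => exact Finite.instSum
  | fold _ _ _ _ _ _ _ _ _ ih => exact Finite.instSum
  | loop _ _ _ _ _ ih => exact Finite.instSum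
  | pendant _ _ ih => exact Finite.instSum
  | iso e _ ih => exact Finite.of_equiv _ e.toEquiv

end Vale.Agent.P050.Ears
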