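import Vale.Agent.P050.R3.H257.Steps
import Vale.Agent.P050.R3.H115.Fold

/-!
# P050, cycles with ears: folded ears
-/

namespace Vale.Agent.P050.Ears

open Finset Matrix Vale.Agent.P050.Lev

open Vale.Agent.P050.H257 (PW PW_sum exp_jensen Between)

variable {V S : Type} [Fintype V] [DecidableEq V] [Fintype S] [DecidableEq S]

variable {k : ℕ} {H : SimpleGraph V} {side : V → Bool} {𝒞 : Set (Rec k V)}
  {A : Matrix S S ℝ} {μ : S → ℝ} {c : S → Bool} {π G : (V → S) → ℝ}

/-- the law after attaching a path between `a` and `b` with the law `ρ` -/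
def attLaw' (π : (V → S) → ℝ) (a b : V) {m : ℕ} (ρ : S → (Fin m → S) → S → ℝ)
    (z : V ⊕ Fin m → S) : ℝ :=
  π (z ∘ Sum.inl) * ρ (z (Sum.inl a)) (z ∘ Sum.inr) (z (Sum.inl b))

omit [DecidableEq S] in
theorem att_sum' (hπ : ∀ z, 0 ≤ π z)
    (a b : V) {m : ℕ} {ρ : S → (Fin m → S) → S → ℝ}
    (hsum : ∀ z, 0 < π z → ∑ e, ρ (z a) e (z b) = 1)
    (F : (V → S) → ℝ) :
    ∑ z : V ⊕ Fin m → S, attLaw' π a b ρ z * F (z ∘ Sum.inl) = ∑ z, π z * F z := by
  rw [sum_elim]
  refine Finset.sum_congr rfl fun z _ => ?_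
  have e1 : ∀ y : Fin m → S, attLaw' π a b ρ (Sum.elim z y) * F (Sum.elim z y ∘ Sum.inl) =
      ρ (z a) y (z b) * (π z * F z) := by
    intro y
    simp only [attLaw', Sum.elim_comp_inl, Sum.elim_comp_inr, Sum.elim_inl]
    ring
  simp only [e1]
  rw [← Finset.sum_mul]
  rcases (hπ z).eq_or_lt with h0 | h0
  · rw [← h0]; simp
  · rw [hsum z h0, one_mul]

theorem Law.attach' (h : Rev A μ c) (L : Law k H side 𝒞 A μ c π G)
    (hp : ∀ u v, H.Adj u v → side u ≠ side v)
    (a b : V) (m : ℕ) (hk : 1 ≤ m) (hab : m = 1 → a ≠ b)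
    (hs : side b = xor (side a) (decide (m % 2 = 0)))
    (ρ g : S → (Fin m → S) → S → ℝ) (hρ : ∀ u e v, 0 ≤ ρ u e v)
    (hg : ∀ u e v, 0 < ρ u e v → 0 < g u e v)
    (hρg : ∀ u e v, ρ u e v * g u e v ≤ PW A m u e v / μ v)
    (hsum : ∀ z, 0 < π z → ∑ e, ρ (z a) e (z b) = 1)
    (hlog : 0 ≤ ∑ z, π z * ∑ e, ρ (z a) e (z b) * Real.log (g (z a) e (z b)))
    (𝒟 : Set (Rec k (V ⊕ Fin m)))
    (hD : ∀ R ∈ 𝒟, (∃ R' ∈ 𝒞, R = (R'.1, Sum.inl ∘ R'.2)) ∨
      ∀ s : Bool, (∀ i ∈ R.1, earSide side (side a) m (R.2 i) = sd s i) →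
        ∀ F : (Fin (k + 1) → S) → ℝ, DependsOn F R.1 →
          ∑ z, attLaw' π a b ρ z * F (fun i => z (R.2 i)) = ∑ x, cycb A c s x * F x) :
    Law k (addEar H a b m) (earSide side (side a) m) 𝒟 A μ c (attLaw' π a b ρ)
      (fun z => G (z ∘ Sum.inl) * g (z (Sum.inl a)) (z ∘ Sum.inr) (z (Sum.inl b))) := by
  have hsplit : ∀ z : V ⊕ Fin m → S, 0 < attLaw' π a b ρ z →
      0 < π (z ∘ Sum.inl) ∧ 0 < ρ (z (Sum.inl a)) (z ∘ Sum.inr) (z (Sum.inl b)) := by
    intro z hz
    unfold attLaw' at hz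
    have h1 : 0 < π (z ∘ Sum.inl) := by
      rcases (L.nonneg (z ∘ Sum.inl)).eq_or_lt with h0 | h0
      · rw [← h0, zero_mul] at hz
        exact absurd hz (lt_irrefl _)
      · exact h0
    exact ⟨h1, pos_of_mul_pos_right hz h1.le⟩
  refine ⟨fun z => mul_nonneg (L.nonneg _) (hρ _ _ _), fun z hz => ?_, fun z => ?_,
    fun R hR s hs' F hF => ?_, ?_, ?_⟩
  · obtain ⟨h1, h2⟩ := hsplit z hz
    exact mul_pos (L.pos _ h1) (hg _ _ _ h2)
  · have hw := wt_addEar h H side a b m hp hk hab hs (z ∘ Sum.inl) (z ∘ Sum.inr)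
    rw [Sum.elim_comp_inl_inr, earW_eq] at hw
    simp only [Function.comp_apply] at hw
    change _ ≤ wt (addEar H a b m) (earSide side (side a) m) A μ c z
    rw [hw]
    have h1 := L.le (z ∘ Sum.inl)
    have h2 : 0 ≤ PW A m (z (Sum.inl a)) (z ∘ Sum.inr) (z (Sum.inl b)) / μ (z (Sum.inl b)) :=
      div_nonneg (PW_nonneg h.nonneg _ _ _ _) (h.pos _).le
    refine le_trans ?_ (mul_le_mul_of_nonneg_right h1 h2)
    unfold attLaw'
    rcases (L.nonneg (z ∘ Sum.inl)).eq_or_lt with h0 | h0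
    · rw [← h0]; simp
    · have h3 := hρg (z (Sum.inl a)) (z ∘ Sum.inr) (z (Sum.inl b))
      have h4 := mul_le_mul_of_nonneg_left h3 (mul_pos h0 (L.pos _ h0)).le
      linarith
  · rcases hD R hR with ⟨R', hR', rfl⟩ | h1
    · have h2 := att_sum' L.nonneg a b hsum (fun z => F (fun i => z (R'.2 i)))
      have h3 := L.marg R' hR' s hs' F hF
      rw [← h2] at h3
      exact h3
    · exact h1 s hs' F hF
  · have h2 := att_sum' L.nonneg a b hsum (fun _ => 1)
    simp only [mul_one] at h2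
    rw [h2, L.mass]
  · have h3 : ∑ z : V ⊕ Fin m → S, attLaw' π a b ρ z * Real.log (G (z ∘ Sum.inl) *
          g (z (Sum.inl a)) (z ∘ Sum.inr) (z (Sum.inl b))) =
        (∑ z : V ⊕ Fin m → S, attLaw' π a b ρ z * (fun z => Real.log (G z)) (z ∘ Sum.inl)) +
        ∑ z : V ⊕ Fin m → S, attLaw' π a b ρ z *
          Real.log (g (z (Sum.inl a)) (z ∘ Sum.inr) (z (Sum.inl b))) := by
      rw [← Finset.sum_add_distrib]
      refine Finset.sum_congr rfl fun z _ => ?_
      have h0' : 0 ≤ attLaw' π a b ρ z := mul_nonneg (L.nonneg _) (hρ _ _ _)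
      rcases h0'.eq_or_lt with h0 | h0
      · rw [← h0]; simp
      · obtain ⟨h1, h2⟩ := hsplit z h0
        rw [Real.log_mul (L.pos _ h1).ne' (hg _ _ _ h2).ne']
        ring
    rw [h3, att_sum' L.nonneg a b hsum (fun z => Real.log (G z))]
    refine add_nonneg L.log (hlog.trans (le_of_eq ?_))
    rw [sum_elim]
    refine Finset.sum_congr rfl fun z _ => ?_
    rw [Finset.mul_sum]
    refine Finset.sum_congr rfl fun y _ => ?_
    simp only [attLaw', Sum.elim_comp_inl, Sum.elim_comp_inr, Sum.elim_inl]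
    ring


section fold

variable {l s K : ℕ}

omit [DecidableEq S] in
theorem cycb_pos_cyc {b : Bool} {x : Fin (k + 1) → S} (hx : 0 < cycb A c b x) :
    0 < cyc A x ∧ c (x 0) = b := by
  unfold cycb at hx
  split_ifs at hx with h1
  · exact ⟨hx, h1⟩
  · exact absurd hx (lt_irrefl _)

/-- the law of the new vertices of a folded ear -/
noncomputable abbrev fρ (A : Matrix S S ℝ) (μ : S → ℝ) (k l s : ℕ) {K : ℕ}
    (hy : l + s - 1 < K) : S → (Fin K → S) → S → ℝ :=
  fun u e v => foldLaw A μ l s (k + 1 - l - s) hy u e v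

/-- the factor of a folded ear -/
noncomputable abbrev fg (A : Matrix S S ℝ) (μ : S → ℝ) (k l s : ℕ) {K : ℕ}
    (hy : l + s - 1 < K) : S → (Fin K → S) → S → ℝ :=
  fun u e v => (foldTh A μ l s (k + 1 - l - s) u (e ⟨l + s - 1, hy⟩) v)⁻¹

theorem foldTh_nonneg (h : Rev A μ c) (l s c1 : ℕ) (u y v : S) :
    0 ≤ foldTh A μ l s c1 u y v :=
  div_nonneg (h.kap_nonneg _ _ _) (mul_nonneg (h.kap_nonneg _ _ _) (h.kap_nonneg _ _ _))

theorem fold_support (h : Rev A μ c) (hk : (k + 1) % 2 = 0) (b : Bool)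
    (hl : 1 ≤ l) (hlk : l < k + 1) (x : Fin (k + 1) → S) (hx : 0 < cycb A c b x) :
    0 < (A ^ l) (x 0) (x ⟨l, hlk⟩) ∧ 0 < kap A μ (k + 1 - l) (x 0) (x ⟨l, hlk⟩) := by
  have e : (((⟨l, hlk⟩ : Fin (k + 1)) - 0 : Fin (k + 1)) : ℕ) = l := by rw [sub_zero]
  have h1 := ear_pos h b hk 0 ⟨l, hlk⟩ l (by
    rw [e]; exact ⟨rfl, min_le_left _ _, le_max_left _ _⟩) x hx
  have h2 := ear_pos h b hk 0 ⟨l, hlk⟩ (k + 1 - l) (by
    rw [e]; exact ⟨by omega, min_le_right _ _, le_max_right _ _⟩) x hx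
  refine ⟨?_, h2⟩
  rcases (h.pow_nonneg l (x 0) (x ⟨l, hlk⟩)).eq_or_lt with h0 | h0
  · unfold kap at h1
    rw [← h0, zero_div] at h1
    exact absurd h1 (lt_irrefl _)
  · exact h0

theorem fold_log' (h : Rev A μ c) (hk : (k + 1) % 2 = 0) (b : Bool)
    (hl : 1 ≤ l) (hs : 1 ≤ s) (hK : K + 1 = l + 2 * s) (hc : 2 * (l + s) ≤ k + 1) :
    0 ≤ ∑ x : Fin (k + 1) → S, cycb A c b x * ∑ e : Fin K → S,
      fρ A μ k l s (by omega) (x 0) e (x ⟨l, by omega⟩) *
        Real.log (fg A μ k l s (by omega) (x 0) e (x ⟨l, by omega⟩)) := by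
  set c1 := k + 1 - l - s with hc1
  have hsc : s + c1 = k + 1 - l := by omega
  -- the two parts
  set D : S → S → ℝ := fun u y => Real.log (kap A μ (l + s) u y) - Real.log (kap A μ c1 u y)
    with hD
  set F : (Fin (k + 1) → S) → ℝ := fun x =>
    if c (x 0) = b then D (x 0) (x ⟨l + s, by omega⟩) else 0 with hF
  have hFd : DependsOn F {i : Fin (k + 1) | (i : ℕ) ≤ l + s} := by
    intro x y hxy
    have e1 : x 0 = y 0 := hxy 0 (by show ((0 : Fin (k + 1)) : ℕ) ≤ l + s; simp)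
    have e2 : x ⟨l + s, by omega⟩ = y ⟨l + s, by omega⟩ := hxy _ (le_refl (l + s))
    simp only [hF, e1, e2]
  have h1 := fold_marg_long h (K := K) (k := k) (c1 := c1) hl hs (by omega) hK (by omega) F hFd
  have h2 : ∀ x : Fin (k + 1) → S, cycb A c b x * ∑ e : Fin K → S,
      fρ A μ k l s (by omega) (x 0) e (x ⟨l, by omega⟩) *
        Real.log (fg A μ k l s (by omega) (x 0) e (x ⟨l, by omega⟩)) =
      cycb A c b x * Real.log (kap A μ (s + c1) (x 0) (x ⟨l, by omega⟩)) +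
      cyc A x * (∑ e : Fin K → S,
        foldLaw A μ l s c1 (by omega) (x 0) e (x ⟨l, by omega⟩) *
        F (fun i => if hi : 1 ≤ (i : ℕ) ∧ (i : ℕ) ≤ l + s then e ⟨i - 1, by omega⟩
          else x i)) := by
    intro x
    have e0 : ∀ e : Fin K → S,
        F (fun i => if hi : 1 ≤ (i : ℕ) ∧ (i : ℕ) ≤ l + s then e ⟨i - 1, by omega⟩ else x i) =
        if c (x 0) = b then D (x 0) (e ⟨l + s - 1, by omega⟩) else 0 := by
      intro e
      simp only [hF]
      have e1 : ¬ (1 ≤ ((0 : Fin (k + 1)) : ℕ) ∧ ((0 : Fin (k + 1)) : ℕ) ≤ l + s) := by simp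
      have e2 : 1 ≤ l + s ∧ l + s ≤ l + s := by omega
      simp only [dif_neg e1, dif_pos e2]
    simp only [e0]
    by_cases hb : c (x 0) = b
    swap
    · simp only [cycb, if_neg hb, mul_zero, Finset.sum_const_zero, zero_mul, add_zero]
    have e3 : cycb A c b x = cyc A x := by simp only [cycb, if_pos hb]
    simp only [if_pos hb]
    rcases (cycb_nonneg h b x).eq_or_lt with h0 | h0
    · rw [e3] at h0 ⊢
      rw [← h0]; ring
    obtain ⟨p1, p2⟩ := fold_support h hk b hl (by omega : l < k + 1) x h0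
    rw [← hsc] at p2
    have h3 := fold_sum h (c1 := c1) hl hs hK (x 0) (x ⟨l, by omega⟩) p1 p2
    rw [e3, ← mul_add]
    congr 1
    rw [← one_mul (Real.log (kap A μ (s + c1) (x 0) (x ⟨l, by omega⟩))), ← h3,
      Finset.sum_mul, ← Finset.sum_add_distrib]
    refine Finset.sum_congr rfl fun e _ => ?_
    rw [← mul_add]
    change foldLaw A μ l s c1 _ (x 0) e (x ⟨l, _⟩) * Real.log (foldTh A μ l s c1 (x 0)
      (e ⟨l + s - 1, _⟩) (x ⟨l, _⟩))⁻¹ = _
    rcases (foldTh_nonneg h l s c1 (x 0) (e ⟨l + s - 1, by omega⟩)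
      (x ⟨l, by omega⟩)).eq_or_lt with h4 | h4
    · have h5 : foldLaw A μ l s c1 (by omega) (x 0) e (x ⟨l, by omega⟩) = 0 := by
        unfold foldLaw
        rw [← h4, mul_zero]
      rw [h5, zero_mul, zero_mul]
    · congr 1
      unfold foldTh at h4 ⊢
      have q1 : kap A μ c1 (x 0) (e ⟨l + s - 1, by omega⟩) ≠ 0 := by
        intro h6; rw [h6, zero_div] at h4; exact lt_irrefl _ h4
      have q2 : kap A μ (l + s) (x 0) (e ⟨l + s - 1, by omega⟩) *
          kap A μ (s + c1) (x 0) (x ⟨l, by omega⟩) ≠ 0 := by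
        intro h6; rw [h6, div_zero] at h4; exact lt_irrefl _ h4
      rw [inv_div, Real.log_div q2 q1, Real.log_mul (left_ne_zero_of_mul q2)
        (right_ne_zero_of_mul q2)]
      simp only [hD]
      ring
  simp only [h2, Finset.sum_add_distrib]
  rw [h1]
  -- closed form of the sums
  have hA1 : ∑ x : Fin (k + 1) → S, cycb A c b x *
      Real.log (kap A μ (s + c1) (x 0) (x ⟨l, by omega⟩)) =
      ∑ u, ∑ v, (if c u = b then (A ^ l) u v * (A ^ (s + c1)) v u *
        Real.log (kap A μ (s + c1) u v) else 0) := by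
    have e1 : ∀ x : Fin (k + 1) → S, cycb A c b x *
        Real.log (kap A μ (s + c1) (x 0) (x ⟨l, by omega⟩)) = cyc A x *
        (fun u v => if c u = b then Real.log (kap A μ (s + c1) u v) else 0) (x 0)
          (x ⟨l, by omega⟩) := by
      intro x
      simp only [cycb]
      split_ifs <;> simp
    simp only [e1]
    rw [cyc_pair A (0 : Fin (k + 1)) ⟨l, by omega⟩
      (fun u v => if c u = b then Real.log (kap A μ (s + c1) u v) else 0)]
    simp only [sub_zero]
    rw [← hsc]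
    refine Finset.sum_congr rfl fun u _ => Finset.sum_congr rfl fun v _ => ?_
    split_ifs
    · rfl
    · rw [mul_zero]
  have hA2 : ∑ x : Fin (k + 1) → S, cyc A x * F x =
      ∑ u, ∑ y, (if c u = b then (A ^ (l + s)) u y * (A ^ c1) y u *
        (Real.log (kap A μ (l + s) u y) - Real.log (kap A μ c1 u y)) else 0) := by
    have e1 : ∀ x : Fin (k + 1) → S, cyc A x * F x = cyc A x *
        (fun u y => if c u = b then D u y else 0) (x 0) (x ⟨l + s, by omega⟩) := fun x => rfl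
    simp only [e1]
    rw [cyc_pair A (0 : Fin (k + 1)) ⟨l + s, by omega⟩ (fun u y => if c u = b then D u y else 0)]
    simp only [sub_zero]
    rw [show k + 1 - (l + s) = c1 by omega]
    refine Finset.sum_congr rfl fun u _ => Finset.sum_congr rfl fun v _ => ?_
    split_ifs
    · rfl
    · rw [mul_zero]
  rw [hA1, hA2]
  obtain ⟨m, hm⟩ : ∃ m, c1 = l + s + 2 * m := ⟨(c1 - l - s) / 2, by omega⟩
  have h5 := fold_log h b l s m
  rw [← hm] at h5
  refine le_trans ?_ h5
  rw [show l + (s + c1) = k + 1 by omega]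
  have ht : 1 ≤ tr A c b (k + 1) := by
    obtain ⟨m, hm⟩ : ∃ m, k + 1 = 2 * m := ⟨(k + 1) / 2, by omega⟩
    rw [hm]; exact h.tr_ge b m
  exact mul_nonneg (by linarith) (Real.log_nonneg ht)

/-- the record along a folded ear, at the positions `0, …, l + s` -/
def longRec (R : Rec k V) (l s K : ℕ) (hK : l + s ≤ K) : Rec k (V ⊕ Fin K) :=
  ({i | i.val ≤ l + s},
    fun i => if h : 1 ≤ i.val ∧ i.val ≤ l + s then Sum.inr ⟨i.val - 1, by omega⟩ else
      Sum.inl (R.2 i))

/-- the record at the positions `0, …, l`, then back along the end of a folded ear, at the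
positions `l + 1, …, l + s` -/
def shortRec (R : Rec k V) (l s K : ℕ) (hK : l + s ≤ K) : Rec k (V ⊕ Fin K) :=
  ({i | i.val ≤ l ∧ i ∈ R.1} ∪ {i | l + 1 ≤ i.val ∧ i.val ≤ l + s},
    fun i => if h : l + 1 ≤ i.val ∧ i.val ≤ l + s then Sum.inr ⟨K - (i.val - l), by omega⟩ else
      Sum.inl (R.2 i))

theorem long_marg (h : Rev A μ c) (L : Law k H side 𝒞 A μ c π G)
    {R : Rec k V} (hR : R ∈ 𝒞) {b : Bool} (hb : ∀ i ∈ R.1, side (R.2 i) = sd b i)
    (hl : 1 ≤ l) (hs : 1 ≤ s) (hK : K + 1 = l + 2 * s) (hc : 2 * (l + s) ≤ k + 1)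
    (h0 : (0 : Fin (k + 1)) ∈ R.1)
    (h1 : (⟨l, by omega⟩ : Fin (k + 1)) ∈ R.1)
    (F : (Fin (k + 1) → S) → ℝ) (hF : DependsOn F (longRec R l s K (by omega)).1) :
    ∑ z, attLaw' π (R.2 0) (R.2 ⟨l, by omega⟩) (fρ A μ k l s (by omega)) z *
        F (fun i => z ((longRec R l s K (by omega)).2 i)) =
      ∑ x, cycb A c b x * F x := by
  set F' : (Fin (k + 1) → S) → ℝ := fun x => if c (x 0) = b then F x else 0 with hF'
  have hF2 : DependsOn F' {i : Fin (k + 1) | (i : ℕ) ≤ l + s} := by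
    intro x y hxy
    have e1 : x 0 = y 0 := hxy 0 (by show ((0 : Fin (k + 1)) : ℕ) ≤ l + s; simp)
    simp only [hF', e1, hF hxy]
  have h2 := fold_marg_long h (K := K) (k := k) (c1 := k + 1 - l - s) hl hs (by omega) hK
    (by omega) F' hF2
  have h3 := L.marg R hR b hb (fun x => ∑ e : Fin K → S,
      foldLaw A μ l s (k + 1 - l - s) (by omega) (x 0) e (x ⟨l, by omega⟩) *
        F (fun i => if h : 1 ≤ i.val ∧ i.val ≤ l + s then e ⟨i.val - 1, by omega⟩ else x i)) (by
    intro x y hxy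
    refine Finset.sum_congr rfl fun w _ => ?_
    rw [hxy _ h0, hxy _ h1]
    congr 1
    apply hF
    intro i hi
    by_cases h4 : 1 ≤ i.val ∧ i.val ≤ l + s
    · simp only [dif_pos h4]
    · simp only [dif_neg h4]
      have h5 : i.val ≤ l + s := hi
      have h6 : i = 0 := Fin.ext (by show i.val = 0; omega)
      rw [h6]; exact hxy 0 h0)
  have h4 : ∑ x, cycb A c b x * F x = ∑ x, cyc A x * F' x := by
    refine Finset.sum_congr rfl fun x _ => ?_
    simp only [hF', cycb]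
    split_ifs <;> simp
  rw [h4, ← h2]
  have h5 : ∀ x : Fin (k + 1) → S, cyc A x * (∑ e : Fin K → S,
      foldLaw A μ l s (k + 1 - l - s) (by omega) (x 0) e (x ⟨l, by omega⟩) *
        F' (fun i => if h : 1 ≤ i.val ∧ i.val ≤ l + s then e ⟨i.val - 1, by omega⟩ else x i)) =
      cycb A c b x * (∑ e : Fin K → S,
      foldLaw A μ l s (k + 1 - l - s) (by omega) (x 0) e (x ⟨l, by omega⟩) *
        F (fun i => if h : 1 ≤ i.val ∧ i.val ≤ l + s then e ⟨i.val - 1, by omega⟩ else x i)) := by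
    intro x
    by_cases hx : c (x 0) = b
    · simp only [hF', cycb, hx, if_true]
      congr 1
      refine Finset.sum_congr rfl fun y _ => ?_
      simp [hx]
    · simp only [cycb, if_neg hx, zero_mul]
      apply mul_eq_zero_of_right
      refine Finset.sum_eq_zero fun y _ => ?_
      simp [hF', hx]
  simp only [h5]
  rw [← h3, sum_elim]
  refine Finset.sum_congr rfl fun z _ => ?_
  rw [Finset.mul_sum]
  refine Finset.sum_congr rfl fun y _ => ?_
  simp only [attLaw', fρ, Sum.elim_comp_inl, Sum.elim_comp_inr, Sum.elim_inl]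
  rw [mul_assoc]
  congr 3
  funext i
  simp only [longRec]
  by_cases h6 : 1 ≤ i.val ∧ i.val ≤ l + s
  · simp only [dif_pos h6, Sum.elim_inr]
  · simp only [dif_neg h6, Sum.elim_inl]

theorem short_marg (h : Rev A μ c) (L : Law k H side 𝒞 A μ c π G)
    {R : Rec k V} (hR : R ∈ 𝒞) {b : Bool} (hb : ∀ i ∈ R.1, side (R.2 i) = sd b i)
    (hl : 1 ≤ l) (hs : 1 ≤ s) (hK : K + 1 = l + 2 * s) (hc : 2 * (l + s) ≤ k + 1)
    (h0 : (0 : Fin (k + 1)) ∈ R.1)
    (h1 : (⟨l, by omega⟩ : Fin (k + 1)) ∈ R.1)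
    (F : (Fin (k + 1) → S) → ℝ) (hF : DependsOn F (shortRec R l s K (by omega)).1) :
    ∑ z, attLaw' π (R.2 0) (R.2 ⟨l, by omega⟩) (fρ A μ k l s (by omega)) z *
        F (fun i => z ((shortRec R l s K (by omega)).2 i)) =
      ∑ x, cycb A c b x * F x := by
  set F' : (Fin (k + 1) → S) → ℝ := fun x => if c (x 0) = b then F x else 0 with hF'
  have hsub : ∀ i ∈ (shortRec R l s K (by omega)).1, (i : ℕ) ≤ l + s := by
    rintro i (hi | hi)
    · have := hi.1; omega
    · exact hi.2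
  have hF2 : DependsOn F' {i : Fin (k + 1) | (i : ℕ) ≤ l + s} := by
    intro x y hxy
    have e1 : x 0 = y 0 := hxy 0 (by show ((0 : Fin (k + 1)) : ℕ) ≤ l + s; simp)
    simp only [hF', e1, hF fun i hi => hxy i (hsub i hi)]
  have h2 := fold_marg_short h (K := K) (k := k) (c1 := k + 1 - l - s) hl hs (by omega) hK
    (by omega) F' hF2
  have h3 := L.marg R hR b hb (fun x => ∑ e : Fin K → S,
      foldLaw A μ l s (k + 1 - l - s) (by omega) (x 0) e (x ⟨l, by omega⟩) *
        F (fun i => if h : l + 1 ≤ i.val ∧ i.val ≤ l + s then e ⟨K - (i.val - l), by omega⟩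
          else x i)) (by
    intro x y hxy
    refine Finset.sum_congr rfl fun w _ => ?_
    rw [hxy _ h0, hxy _ h1]
    congr 1
    apply hF
    intro i hi
    by_cases h4 : l + 1 ≤ i.val ∧ i.val ≤ l + s
    · simp only [dif_pos h4]
    · simp only [dif_neg h4]
      rcases hi with hi | hi
      · exact hxy i hi.2
      · exact absurd hi h4)
  have h4 : ∑ x, cycb A c b x * F x = ∑ x, cyc A x * F' x := by
    refine Finset.sum_congr rfl fun x _ => ?_
    simp only [hF', cycb]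
    split_ifs <;> simp
  rw [h4, ← h2]
  have h5 : ∀ x : Fin (k + 1) → S, cyc A x * (∑ e : Fin K → S,
      foldLaw A μ l s (k + 1 - l - s) (by omega) (x 0) e (x ⟨l, by omega⟩) *
        F' (fun i => if h : l + 1 ≤ i.val ∧ i.val ≤ l + s then e ⟨K - (i.val - l), by omega⟩
          else x i)) =
      cycb A c b x * (∑ e : Fin K → S,
      foldLaw A μ l s (k + 1 - l - s) (by omega) (x 0) e (x ⟨l, by omega⟩) *
        F (fun i => if h : l + 1 ≤ i.val ∧ i.val ≤ l + s then e ⟨K - (i.val - l), by omega⟩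
          else x i)) := by
    intro x
    by_cases hx : c (x 0) = b
    · simp only [hF', cycb, hx, if_true]
      congr 1
      refine Finset.sum_congr rfl fun y _ => ?_
      simp [hx]
    · simp only [cycb, if_neg hx, zero_mul]
      apply mul_eq_zero_of_right
      refine Finset.sum_eq_zero fun y _ => ?_
      simp [hF', hx]
  simp only [h5]
  rw [← h3, sum_elim]
  refine Finset.sum_congr rfl fun z _ => ?_
  rw [Finset.mul_sum]
  refine Finset.sum_congr rfl fun y _ => ?_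
  simp only [attLaw', fρ, Sum.elim_comp_inl, Sum.elim_comp_inr, Sum.elim_inl]
  rw [mul_assoc]
  congr 3
  funext i
  simp only [shortRec]
  by_cases h6 : l + 1 ≤ i.val ∧ i.val ≤ l + s
  · simp only [dif_pos h6, Sum.elim_inr]
  · simp only [dif_neg h6, Sum.elim_inl]

end fold

end Vale.Agent.P050.Ears
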