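import Vale.Agent.P050.R3.H257.Walk2
import Vale.Agent.P050.R3.H149.Ops
import Vale.Agent.P050.R3.H987.Embed

/-!
# P050, cycles with ears: the invariant law
-/

namespace Vale.Agent.P050.Ears

open Finset Matrix Vale.Agent.P050.Lev

open Vale.Agent.P050.H257 (PW PW_sum exp_jensen Between)

variable {V S : Type} [Fintype V] [DecidableEq V] [Fintype S] [DecidableEq S]

/-- a record: positions on the cycle of length `k + 1` with the vertices at these positions -/
abbrev Rec (k : ℕ) (V : Type) : Type := Set (Fin (k + 1)) × (Fin (k + 1) → V)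

/-- a law `π` on the maps of the vertices to the states such that each record has
the law of the closed walks of length `k + 1`, and the weight of the graph is at least `π G` -/
structure Law (k : ℕ) (H : SimpleGraph V) (side : V → Bool) (𝒞 : Set (Rec k V))
    (A : Matrix S S ℝ) (μ : S → ℝ) (c : S → Bool) (π G : (V → S) → ℝ) : Prop where
  nonneg : ∀ z, 0 ≤ π z
  pos : ∀ z, 0 < π z → 0 < G z
  le : ∀ z, π z * G z ≤ wt H side A μ c z
  marg : ∀ R ∈ 𝒞, ∀ b : Bool, (∀ i ∈ R.1, side (R.2 i) = sd b i) →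
    ∀ F : (Fin (k + 1) → S) → ℝ, DependsOn F R.1 →
      ∑ z, π z * F (fun i => z (R.2 i)) = ∑ x, cycb A c b x * F x
  mass : ∑ z, π z = tr A c true (k + 1)
  log : 0 ≤ ∑ z, π z * Real.log (G z)

omit [DecidableEq S] in
theorem sum_elim {W : Type} [Fintype W] [DecidableEq W]
    (F : (V ⊕ W → S) → ℝ) :
    ∑ z, F z = ∑ z : V → S, ∑ y : W → S, F (Sum.elim z y) := by
  rw [← (Equiv.sumArrowEquivProdArrow V W S).symm.sum_comp, Fintype.sum_prod_type]
  rfl

omit [Fintype S] [DecidableEq S] in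
theorem earW_eq (A : Matrix S S ℝ) (k : ℕ) (u : S) (z : Fin k → S) (w : S) :
    earW A k u z w = PW A k u z w := by
  induction k generalizing u with
  | zero => rfl
  | succ k ih => rw [earW, PW, ih]

omit [Fintype S] [DecidableEq S] in
theorem PW_nonneg {A : Matrix S S ℝ} (hA : ∀ u v, 0 ≤ A u v) (k : ℕ) (u : S) (z : Fin k → S)
    (w : S) : 0 ≤ PW A k u z w := by
  induction k generalizing u with
  | zero => exact hA _ _
  | succ k ih => exact mul_nonneg (hA _ _) (ih _ _)

/-- the law after attaching a path between `a` and `b` -/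
noncomputable def attLaw (A : Matrix S S ℝ) (π : (V → S) → ℝ) (a b : V) (m : ℕ)
    (z : V ⊕ Fin m → S) : ℝ :=
  π (z ∘ Sum.inl) * (PW A m (z (Sum.inl a)) (z ∘ Sum.inr) (z (Sum.inl b)) /
    (A ^ (m + 1)) (z (Sum.inl a)) (z (Sum.inl b)))

/-- the factor after attaching a path between `a` and `b` -/
noncomputable def attFac (A : Matrix S S ℝ) (μ : S → ℝ) (G : (V → S) → ℝ) (a b : V) (m : ℕ)
    (z : V ⊕ Fin m → S) : ℝ :=
  G (z ∘ Sum.inl) * kap A μ (m + 1) (z (Sum.inl a)) (z (Sum.inl b))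

section attach

variable {k : ℕ} {H : SimpleGraph V} {side : V → Bool} {𝒞 : Set (Rec k V)}
  {A : Matrix S S ℝ} {μ : S → ℝ} {c : S → Bool} {π G : (V → S) → ℝ}

theorem att_sum (hπ : ∀ z, 0 ≤ π z)
    (a b : V) (m : ℕ) (hpos : ∀ z, 0 < π z → 0 < kap A μ (m + 1) (z a) (z b))
    (F : (V → S) → ℝ) :
    ∑ z : V ⊕ Fin m → S, attLaw A π a b m z * F (z ∘ Sum.inl) = ∑ z, π z * F z := by
  rw [sum_elim]
  refine Finset.sum_congr rfl fun z _ => ?_
  have e1 : ∀ y : Fin m → S, attLaw A π a b m (Sum.elim z y) * F (Sum.elim z y ∘ Sum.inl) =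
      PW A m (z a) y (z b) * (π z * F z / (A ^ (m + 1)) (z a) (z b)) := by
    intro y
    simp only [attLaw, Sum.elim_comp_inl, Sum.elim_comp_inr, Sum.elim_inl]
    ring
  simp only [e1]
  rw [← Finset.sum_mul, PW_sum]
  rcases (hπ z).eq_or_lt with h0 | h0
  · rw [← h0]; simp
  · have h1 := hpos z h0
    have h2 : (A ^ (m + 1)) (z a) (z b) ≠ 0 := by
      intro h3
      rw [kap, h3, zero_div] at h1
      exact absurd h1 (lt_irrefl _)
    field_simp

theorem Law.attach (h : Rev A μ c) (L : Law k H side 𝒞 A μ c π G)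
    (hp : ∀ u v, H.Adj u v → side u ≠ side v)
    (a b : V) (m : ℕ) (hk : 1 ≤ m) (hab : m = 1 → a ≠ b)
    (hs : side b = xor (side a) (decide (m % 2 = 0)))
    (hpos : ∀ z, 0 < π z → 0 < kap A μ (m + 1) (z a) (z b))
    (hlog : 0 ≤ ∑ z, π z * Real.log (kap A μ (m + 1) (z a) (z b)))
    (𝒟 : Set (Rec k (V ⊕ Fin m)))
    (hD : ∀ R ∈ 𝒟, (∃ R' ∈ 𝒞, R = (R'.1, Sum.inl ∘ R'.2)) ∨
      ∀ s : Bool, (∀ i ∈ R.1, earSide side (side a) m (R.2 i) = sd s i) →
        ∀ F : (Fin (k + 1) → S) → ℝ, DependsOn F R.1 →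
          ∑ z, attLaw A π a b m z * F (fun i => z (R.2 i)) = ∑ x, cycb A c s x * F x) :
    Law k (addEar H a b m) (earSide side (side a) m) 𝒟 A μ c (attLaw A π a b m)
      (attFac A μ G a b m) := by
  have hA : ∀ z : V ⊕ Fin m → S, 0 ≤ PW A m (z (Sum.inl a)) (z ∘ Sum.inr) (z (Sum.inl b)) /
    (A ^ (m + 1)) (z (Sum.inl a)) (z (Sum.inl b)) := fun z =>
    div_nonneg (PW_nonneg h.nonneg _ _ _ _) (h.pow_nonneg _ _ _)
  refine ⟨fun z => mul_nonneg (L.nonneg _) (hA z), fun z hz => ?_, fun z => ?_,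
    fun R hR s hs' F hF => ?_, ?_, ?_⟩
  · unfold attLaw at hz
    have h1 : 0 < π (z ∘ Sum.inl) := by
      rcases (L.nonneg (z ∘ Sum.inl)).eq_or_lt with h0 | h0
      · rw [← h0, zero_mul] at hz
        exact absurd hz (lt_irrefl _)
      · exact h0
    exact mul_pos (L.pos _ h1) (hpos _ h1)
  · have hw := wt_addEar h H side a b m hp hk hab hs (z ∘ Sum.inl) (z ∘ Sum.inr)
    rw [Sum.elim_comp_inl_inr, earW_eq] at hw
    simp only [Function.comp_apply] at hw
    change _ ≤ wt (addEar H a b m) (earSide side (side a) m) A μ c z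
    rw [hw]
    have h1 := L.le (z ∘ Sum.inl)
    have h2 : 0 ≤ PW A m (z (Sum.inl a)) (z ∘ Sum.inr) (z (Sum.inl b)) / μ (z (Sum.inl b)) :=
      div_nonneg (PW_nonneg h.nonneg _ _ _ _) (h.pos _).le
    refine le_trans ?_ (mul_le_mul_of_nonneg_right h1 h2)
    unfold attLaw attFac
    rcases (L.nonneg (z ∘ Sum.inl)).eq_or_lt with h0 | h0
    · rw [← h0]; simp
    · have h3 := hpos _ h0
      have h4 : (A ^ (m + 1)) (z (Sum.inl a)) (z (Sum.inl b)) ≠ 0 := by
        intro h5
        simp only [Function.comp_apply] at h3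
        rw [kap, h5, zero_div] at h3
        exact absurd h3 (lt_irrefl _)
      apply le_of_eq
      unfold kap
      have h6 := (h.pos (z (Sum.inl b))).ne'
      field_simp
  · rcases hD R hR with ⟨R', hR', rfl⟩ | h1
    · have h2 := att_sum (A := A) L.nonneg a b m hpos (fun z => F (fun i => z (R'.2 i)))
      have h3 := L.marg R' hR' s hs' F hF
      rw [← h2] at h3
      exact h3
    · exact h1 s hs' F hF
  · have h2 := att_sum (A := A) L.nonneg a b m hpos (fun _ => 1)
    simp only [mul_one] at h2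
    rw [h2, L.mass]
  · have h2 := att_sum (A := A) L.nonneg a b m hpos
      (fun z => Real.log (G z) + Real.log (kap A μ (m + 1) (z a) (z b)))
    have h3 : ∑ z : V ⊕ Fin m → S, attLaw A π a b m z * Real.log (attFac A μ G a b m z) =
        ∑ z : V ⊕ Fin m → S, attLaw A π a b m z *
          (fun z : V → S => Real.log (G z) + Real.log (kap A μ (m + 1) (z a) (z b)))
            (z ∘ Sum.inl) := by
      refine Finset.sum_congr rfl fun z _ => ?_
      rcases (L.nonneg (z ∘ Sum.inl)).eq_or_lt with h0 | h0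
      · unfold attLaw; rw [← h0]; simp
      · unfold attFac
        have h5 : kap A μ (m + 1) (z (Sum.inl a)) (z (Sum.inl b)) ≠ 0 := (hpos _ h0).ne'
        rw [Real.log_mul (L.pos _ h0).ne' h5]
        rfl
    rw [h3, h2]
    simp only [mul_add, Finset.sum_add_distrib]
    exact add_nonneg L.log hlog

theorem Law.pendant (h : Rev A μ c) (L : Law k H side 𝒞 A μ c π G)
    (hp : ∀ u v, H.Adj u v → side u ≠ side v) (a : V) :
    Law k (addPendant H a) (pendantSide side (side a))
      {R | ∃ R' ∈ 𝒞, R = (R'.1, Sum.inl ∘ R'.2)} A μ c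
      (fun z => π (z ∘ Sum.inl) * A (z (Sum.inl a)) (z (Sum.inr ())))
      (fun z => G (z ∘ Sum.inl)) := by
  have hsum : ∀ F : (V → S) → ℝ, ∑ z : V ⊕ Unit → S,
      π (z ∘ Sum.inl) * A (z (Sum.inl a)) (z (Sum.inr ())) * F (z ∘ Sum.inl) =
      ∑ z, π z * F z := by
    intro F
    rw [sum_elim]
    refine Finset.sum_congr rfl fun z _ => ?_
    rw [← (Equiv.funUnique Unit S).symm.sum_comp]
    have e1 : ∀ y : S, π (Sum.elim z ((Equiv.funUnique Unit S).symm y) ∘ Sum.inl) *
        A (Sum.elim z ((Equiv.funUnique Unit S).symm y) (Sum.inl a))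
          (Sum.elim z ((Equiv.funUnique Unit S).symm y) (Sum.inr ())) *
        F (Sum.elim z ((Equiv.funUnique Unit S).symm y) ∘ Sum.inl) =
        π z * F z * A (z a) y := by
      intro y
      simp only [Sum.elim_comp_inl, Sum.elim_inl, Sum.elim_inr]
      rw [show (Equiv.funUnique Unit S).symm y () = y from rfl]
      ring
    simp only [e1]
    rw [← Finset.mul_sum, h.row, mul_one]
  refine ⟨fun z => mul_nonneg (L.nonneg _) (h.nonneg _ _), fun z hz => ?_, fun z => ?_, ?_, ?_, ?_⟩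
  · refine L.pos _ ?_
    rcases (L.nonneg (z ∘ Sum.inl)).eq_or_lt with h0 | h0
    · rw [← h0, zero_mul] at hz
      exact absurd hz (lt_irrefl _)
    · exact h0
  · have hw := wt_addPendant H side a h hp (z ∘ Sum.inl) (z ∘ Sum.inr)
    rw [Sum.elim_comp_inl_inr] at hw
    simp only [Function.comp_apply] at hw
    change _ ≤ wt (addPendant H a) (pendantSide side (side a)) A μ c z
    rw [hw]
    have h1 := mul_le_mul_of_nonneg_right (L.le (z ∘ Sum.inl))
      (h.nonneg (z (Sum.inl a)) (z (Sum.inr ())))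
    linarith
  · rintro R ⟨R', hR', rfl⟩ s hs F hF
    have h2 := hsum (fun z => F (fun i => z (R'.2 i)))
    rw [L.marg R' hR' s hs F hF] at h2
    exact h2
  · have h2 := hsum (fun _ => 1)
    simp only [mul_one] at h2
    rw [h2, L.mass]
  · have h2 := hsum (fun z => Real.log (G z))
    have h3 := L.log
    rw [← h2] at h3
    exact h3

theorem Law.iso {V' : Type} [Fintype V'] [DecidableEq V'] {H' : SimpleGraph V'} (e : H ≃g H')
    (L : Law k H side 𝒞 A μ c π G) :
    Law k H' (side ∘ e.symm) {R | ∃ R' ∈ 𝒞, R = (R'.1, e ∘ R'.2)} A μ c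
      (fun z => π (z ∘ e)) (fun z => G (z ∘ e)) := by
  have hsum : ∀ F : (V → S) → ℝ, ∑ z : V' → S, F (z ∘ e) = ∑ z, F z := by
    intro F
    exact ((e.toEquiv.symm.arrowCongr (Equiv.refl S)).sum_comp F)
  refine ⟨fun z => L.nonneg _, fun z hz => L.pos _ hz, fun z => ?_, ?_, ?_, ?_⟩
  · rw [← wt_iso e]
    have : (side ∘ e.symm) ∘ e = side := by funext v; simp
    rw [this]
    exact L.le _
  · rintro R ⟨R', hR', rfl⟩ s hs F hF
    have h2 := hsum (fun z => π z * F (fun i => z (R'.2 i)))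
    rw [L.marg R' hR' s (fun i hi => by
      have h3 := hs i hi
      simpa using h3) F hF] at h2
    exact h2
  · rw [← L.mass]
    exact hsum π
  · have h3 := L.log
    rw [← hsum (fun z => π z * Real.log (G z))] at h3
    exact h3

theorem Law.one_le (h : Rev A μ c) (hk : (k + 1) % 2 = 0) (L : Law k H side 𝒞 A μ c π G) :
    1 ≤ ∑ z, wt H side A μ c z := by
  have ht : 1 ≤ tr A c true (k + 1) := by
    obtain ⟨m, hm⟩ : ∃ m, k + 1 = 2 * m := ⟨(k + 1) / 2, by omega⟩
    rw [hm]; exact h.tr_ge true m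
  have h1 := exp_jensen π (fun z => Real.log (G z)) (t := tr A c true (k + 1)) (s := 0)
    L.nonneg L.mass (by rw [mul_zero]; exact L.log)
  rw [Real.exp_zero, mul_one] at h1
  refine ht.trans (h1.trans (Finset.sum_le_sum fun z _ => ?_))
  rcases (L.nonneg z).eq_or_lt with h0 | h0
  · have := L.le z
    rw [← h0, zero_mul] at this
    rw [← h0, zero_mul]
    exact this
  · rw [Real.exp_log (L.pos z h0)]
    exact L.le z

end attach

end Vale.Agent.P050.Ears
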