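import Vale.Agent.P050.R3.H257.Inv

/-!
# P050, cycles with ears: the steps of the construction
-/

namespace Vale.Agent.P050.Ears

open Finset Matrix Vale.Agent.P050.Lev

open Vale.Agent.P050.H257 (PW PW_sum exp_jensen Between)

section parity

variable {k : ℕ}

theorem sd_sd (b : Bool) (r : ℕ) : sd (sd b r) r = b := by
  unfold sd
  cases b <;> cases decide (r % 2 = 1) <;> rfl

theorem sd_congr {b : Bool} {i j : ℕ} (h : i % 2 = j % 2) : sd b i = sd b j := by
  unfold sd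
  rw [h]

theorem sd_add_nat (b : Bool) (i r : ℕ) : sd b (i + r) = sd (sd b r) i := by
  unfold sd
  rcases Nat.mod_two_eq_zero_or_one i with hi | hi <;>
    rcases Nat.mod_two_eq_zero_or_one r with hr | hr <;>
    cases b <;> simp [hi, hr, Nat.add_mod]

theorem sd_add (hk : (k + 1) % 2 = 0) (b : Bool) (i r : Fin (k + 1)) :
    sd b ((i + r : Fin (k + 1)) : ℕ) = sd (sd b r) i := by
  rw [← sd_add_nat]
  apply sd_congr
  rw [Fin.val_add]
  exact Nat.mod_mod_of_dvd _ (Nat.dvd_of_mod_eq_zero hk)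

theorem sd_sub (hk : (k + 1) % 2 = 0) (b : Bool) (i r : Fin (k + 1)) :
    sd b ((i - r : Fin (k + 1)) : ℕ) = sd (sd b r) i := by
  have h1 := sd_add hk (sd b r) (i - r) r
  rw [sub_add_cancel, sd_sd] at h1
  exact h1.symm

theorem sd_neg (hk : (k + 1) % 2 = 0) (b : Bool) (i : Fin (k + 1)) :
    sd b ((-i : Fin (k + 1)) : ℕ) = sd b i := by
  have h1 := sd_sub hk b 0 i
  rw [zero_sub] at h1
  rw [h1]
  unfold sd
  simp

end parity

variable {V S : Type} [Fintype V] [DecidableEq V] [Fintype S] [DecidableEq S]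

variable {k : ℕ} {H : SimpleGraph V} {side : V → Bool} {𝒞 : Set (Rec k V)}
  {A : Matrix S S ℝ} {μ : S → ℝ} {c : S → Bool} {π G : (V → S) → ℝ}

omit [Fintype V] [DecidableEq V] [DecidableEq S] in
theorem cycb_rot (h : Rev A μ c) (s : Bool) (r : Fin (k + 1)) (y : Fin (k + 1) → S) :
    cycb A c (sd s r) (fun i => y (i - r)) = cycb A c s y := by
  have h1 := cycb_shift h (sd s r) r (fun i => y (i - r)) 1
  rw [mul_one, sd_sd] at h1
  rw [h1, cyc_eq, H257.cyc_rot, cycb, cyc_eq]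
  simp only [sub_self]
  split_ifs <;> simp

theorem Law.kap_pos (h : Rev A μ c) (hk : (k + 1) % 2 = 0) (L : Law k H side 𝒞 A μ c π G)
    {R : Rec k V} (hR : R ∈ 𝒞) {p q : Fin (k + 1)} (hp : p ∈ R.1) (hq : q ∈ R.1)
    {b : Bool} (hb : ∀ i ∈ R.1, side (R.2 i) = sd b i) (j : ℕ)
    (hj : Between (k + 1) ((q - p : Fin (k + 1)) : ℕ) j) (z : V → S) (hz : 0 < π z) :
    0 < kap A μ j (z (R.2 p)) (z (R.2 q)) := by
  classical
  rcases (h.kap_nonneg j (z (R.2 p)) (z (R.2 q))).eq_or_lt with h0 | h0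
  swap
  · exact h0
  exfalso
  have h1 := L.marg R hR b hb (fun x => if kap A μ j (x p) (x q) = 0 then 1 else 0) (by
    intro x y hxy
    simp only [hxy p hp, hxy q hq])
  have h2 : ∑ x : Fin (k + 1) → S, cycb A c b x *
      (if kap A μ j (x p) (x q) = 0 then (1 : ℝ) else 0) = 0 := by
    refine Finset.sum_eq_zero fun x _ => ?_
    split_ifs with h3
    · rcases (cycb_nonneg h b x).eq_or_lt with h4 | h4
      · rw [← h4, zero_mul]
      · exact absurd h3 (ear_pos h b hk p q j hj x h4).ne'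
    · rw [mul_zero]
  rw [h2] at h1
  have h3 := (Finset.sum_eq_zero_iff_of_nonneg fun z _ => mul_nonneg (L.nonneg z)
    (by split_ifs <;> norm_num)).1 h1 z (mem_univ z)
  rw [if_pos h0.symm, mul_one] at h3
  linarith

theorem Law.log_nonneg (h : Rev A μ c) (hk : (k + 1) % 2 = 0) (L : Law k H side 𝒞 A μ c π G)
    {R : Rec k V} (hR : R ∈ 𝒞) {p q : Fin (k + 1)} (hp : p ∈ R.1) (hq : q ∈ R.1)
    {b : Bool} (hb : ∀ i ∈ R.1, side (R.2 i) = sd b i) (j : ℕ)
    (hj : Between (k + 1) ((q - p : Fin (k + 1)) : ℕ) j) :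
    0 ≤ ∑ z, π z * Real.log (kap A μ j (z (R.2 p)) (z (R.2 q))) := by
  have h1 := L.marg R hR b hb (fun x => Real.log (kap A μ j (x p) (x q))) (by
    intro x y hxy
    simp only [hxy p hp, hxy q hq])
  rw [h1]
  refine le_trans ?_ (ear_log h b hk p q j hj)
  have ht : 1 ≤ tr A c b (k + 1) := by
    obtain ⟨m, hm⟩ : ∃ m, k + 1 = 2 * m := ⟨(k + 1) / 2, by omega⟩
    rw [hm]; exact h.tr_ge b m
  exact mul_nonneg (by linarith) (Real.log_nonneg ht)

theorem Law.rotate (h : Rev A μ c) (hk : (k + 1) % 2 = 0) (L : Law k H side 𝒞 A μ c π G)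
    {R : Rec k V} (hR : R ∈ 𝒞) (r : Fin (k + 1)) :
    Law k H side (insert ({i | i + r ∈ R.1}, fun i => R.2 (i + r)) 𝒞) A μ c π G := by
  refine ⟨L.nonneg, L.pos, L.le, ?_, L.mass, L.log⟩
  intro R' hR' s hs F hF
  rcases hR' with rfl | hR'
  swap
  · exact L.marg R' hR' s hs F hF
  have h1 := L.marg R hR (sd s r) (by
    intro j hj
    have h2 := hs (j - r) (by
      show j - r + r ∈ R.1
      rw [sub_add_cancel]; exact hj)
    simp only [sub_add_cancel] at h2
    rw [h2, sd_sub hk]) (fun x => F (fun i => x (i + r))) (by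
    intro x y hxy
    exact hF fun i hi => hxy _ hi)
  simp only at h1 ⊢
  rw [h1, ← ((Equiv.addRight r).arrowCongr (Equiv.refl S)).sum_comp]
  refine Finset.sum_congr rfl fun y _ => ?_
  have e : ((Equiv.addRight r).arrowCongr (Equiv.refl S)) y = fun i => y (i - r) := by
    funext i
    simp [Equiv.arrowCongr, sub_eq_add_neg]
  rw [e, cycb_rot h]
  simp only [add_sub_cancel_right]

theorem Law.reflect (h : Rev A μ c) (hk : (k + 1) % 2 = 0) (L : Law k H side 𝒞 A μ c π G)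
    {R : Rec k V} (hR : R ∈ 𝒞) :
    Law k H side (insert ({i | -i ∈ R.1}, fun i => R.2 (-i)) 𝒞) A μ c π G := by
  refine ⟨L.nonneg, L.pos, L.le, ?_, L.mass, L.log⟩
  intro R' hR' s hs F hF
  rcases hR' with rfl | hR'
  swap
  · exact L.marg R' hR' s hs F hF
  have h1 := L.marg R hR s (by
    intro j hj
    have h2 := hs (-j) (by
      show - -j ∈ R.1
      rw [neg_neg]; exact hj)
    simp only [neg_neg] at h2
    rw [h2, sd_neg hk]) (fun x => F (fun i => x (-i))) (by
    intro x y hxy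
    exact hF fun i hi => hxy _ hi)
  simp only at h1 ⊢
  rw [h1, ← ((Equiv.neg (Fin (k + 1))).arrowCongr (Equiv.refl S)).sum_comp]
  refine Finset.sum_congr rfl fun y _ => ?_
  have e : ((Equiv.neg (Fin (k + 1))).arrowCongr (Equiv.refl S)) y = fun i => y (-i) := by
    funext i
    simp [Equiv.arrowCongr]
  rw [e]
  simp only [neg_neg]
  congr 1
  unfold cycb
  rw [cyc_reflect h]
  simp only [neg_zero]

/-- the record through a new path of `m` vertices at the positions `1, …, m` -/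
def arcRec (R : Rec k V) (m : ℕ) : Rec k (V ⊕ Fin m) :=
  (R.1 ∪ {i | 1 ≤ i.val ∧ i.val ≤ m},
    fun i => if h : 1 ≤ i.val ∧ i.val ≤ m then Sum.inr ⟨i.val - 1, by omega⟩ else
      Sum.inl (R.2 i))

/-- the law of a new record -/
theorem arc_marg (h : Rev A μ c) (L : Law k H side 𝒞 A μ c π G)
    {R : Rec k V} (hR : R ∈ 𝒞) {b : Bool} (hb : ∀ i ∈ R.1, side (R.2 i) = sd b i)
    (m : ℕ) (hm : m + 1 < k + 1) (h0 : (0 : Fin (k + 1)) ∈ R.1)
    (h1 : (⟨m + 1, hm⟩ : Fin (k + 1)) ∈ R.1)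
    (F : (Fin (k + 1) → S) → ℝ) (hF : DependsOn F (arcRec R m).1) :
    ∑ z, attLaw A π (R.2 0) (R.2 ⟨m + 1, hm⟩) m z * F (fun i => z ((arcRec R m).2 i)) =
      ∑ x, cycb A c b x * F x := by
  obtain ⟨r, rfl⟩ : ∃ r, k = m + 1 + r := ⟨k - (m + 1), by omega⟩
  set F' : (Fin (m + 1 + r + 1) → S) → ℝ := fun x => if c (x 0) = b then F x else 0 with hF'
  have h2 := resample A h.nonneg m r F'
  have h3 := L.marg R hR b hb (fun x => ∑ y : Fin m → S,
      PW A m (x 0) y (x ⟨m + 1, by omega⟩) / (A ^ (m + 1)) (x 0) (x ⟨m + 1, by omega⟩) *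
        F (fun i => if h : 1 ≤ i.val ∧ i.val ≤ m then y ⟨i.val - 1, by omega⟩ else x i)) (by
    intro x y hxy
    refine Finset.sum_congr rfl fun w _ => ?_
    rw [hxy _ h0, hxy _ h1]
    congr 1
    apply hF
    intro i hi
    by_cases h4 : 1 ≤ i.val ∧ i.val ≤ m
    · simp only [dif_pos h4]
    · simp only [dif_neg h4]
      rcases hi with hi | hi
      · exact hxy i hi
      · exact absurd hi h4)
  have h4 : ∑ x, cycb A c b x * F x = ∑ x, cyc A x * F' x := by
    refine Finset.sum_congr rfl fun x _ => ?_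
    simp only [hF', cycb]
    split_ifs <;> simp
  rw [h4, ← h2]
  have h5 : ∀ x : Fin (m + 1 + r + 1) → S, cyc A x * (∑ y : Fin m → S,
      PW A m (x 0) y (x ⟨m + 1, by omega⟩) / (A ^ (m + 1)) (x 0) (x ⟨m + 1, by omega⟩) *
        F' (fun i => if h : 1 ≤ i.val ∧ i.val ≤ m then y ⟨i.val - 1, by omega⟩ else x i)) =
      cycb A c b x * (∑ y : Fin m → S,
      PW A m (x 0) y (x ⟨m + 1, by omega⟩) / (A ^ (m + 1)) (x 0) (x ⟨m + 1, by omega⟩) *
        F (fun i => if h : 1 ≤ i.val ∧ i.val ≤ m then y ⟨i.val - 1, by omega⟩ else x i)) := by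
    intro x
    by_cases hx : c (x 0) = b
    · simp only [hF', cycb, hx, if_true]
      congr 1
      refine Finset.sum_congr rfl fun y _ => ?_
      simp [hx]
    · simp only [cycb, if_neg hx, zero_mul]
      apply mul_eq_zero_of_right
      refine Finset.sum_eq_zero fun y _ => ?_
      simp [hF', hx]
  simp only [h5]
  rw [← h3, sum_elim]
  refine Finset.sum_congr rfl fun z _ => ?_
  rw [Finset.mul_sum]
  refine Finset.sum_congr rfl fun y _ => ?_
  simp only [attLaw, Sum.elim_comp_inl, Sum.elim_comp_inr, Sum.elim_inl]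
  rw [mul_assoc]
  congr 3
  funext i
  simp only [arcRec]
  by_cases h6 : 1 ≤ i.val ∧ i.val ≤ m
  · simp only [dif_pos h6, Sum.elim_inr]
  · simp only [dif_neg h6, Sum.elim_inl]

end Vale.Agent.P050.Ears
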